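import Mathlib.Analysis.SpecialFunctions.Complex.CircleAddChar
import Mathlib.RingTheory.Polynomial.Cyclotomic.Roots
import Mathlib.RingTheory.RootsOfUnity.Complex
import Mathlib.FieldTheory.Finite.Basic
import Mathlib.Tactic
import Mathlib.LinearAlgebra.Lagrange
import Mathlib.Algebra.Polynomial.Taylor
import Mathlib.Data.Nat.Choose.Dvd

/-!
Groups acting on `ZMod r` with an element `s` acting as `x ↦ x + 1`: automorphisms fixing `s`.
-/

set_option autoImplicit false
set_option linter.all false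

namespace Vale.Agent.N240

section

open Equiv Finset

variable {r : ℕ} [hr : Fact r.Prime] {L : Type*} [Group L]

lemma pow_app (π : L →* Perm (ZMod r)) {s : L} (hs : ∀ x, π s x = x + 1) (k : ℕ) (x : ZMod r) :
    π (s ^ k) x = x + k := by
  induction k with
  | zero => simp
  | succ k ih => rw [pow_succ', map_mul, Perm.mul_apply, ih, hs]; push_cast; ring

lemma val_app (π : L →* Perm (ZMod r)) {s : L} (hs : ∀ x, π s x = x + 1) (c x : ZMod r) :
    π (s ^ c.val) x = x + c := by
  rw [pow_app π hs, ZMod.natCast_zmod_val]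

lemma val_app_inv (π : L →* Perm (ZMod r)) {s : L} (hs : ∀ x, π s x = x + 1) (c x : ZMod r) :
    π (s ^ c.val)⁻¹ x = x - c := by
  rw [map_inv, Perm.inv_eq_iff_eq, val_app π hs, sub_add_cancel]

/-- the invariant relation -/
lemma inv_rel (π ρ : L →* Perm (ZMod r)) {s : L} (hs : ∀ x, π s x = x + 1)
    (hs' : ∀ x, ρ s x = x + 1) {D : Finset (ZMod r)}
    (hD : ∀ h, π h 0 = 0 → ∀ d ∈ D, ρ h d ∈ D) (g : L) (i : ZMod r) :
    ∀ d ∈ D, ρ g (i + d) - π g i ∈ D := by
  intro d hd
  have h1 := hD ((s ^ (π g i).val)⁻¹ * g * s ^ i.val) (by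
    rw [map_mul, map_mul, Perm.mul_apply, Perm.mul_apply, val_app π hs, val_app_inv π hs, zero_add,
      sub_self]) d hd
  rwa [map_mul, map_mul, Perm.mul_apply, Perm.mul_apply, val_app ρ hs', val_app_inv ρ hs',
    add_comm d i] at h1

lemma sum_rel (π ρ : L →* Perm (ZMod r)) {s : L} (hs : ∀ x, π s x = x + 1)
    (hs' : ∀ x, ρ s x = x + 1) {D : Finset (ZMod r)}
    (hD : ∀ h, π h 0 = 0 → ∀ d ∈ D, ρ h d ∈ D) (g : L) (i : ZMod r) {A : Type*}
    [AddCommMonoid A] (φ : ZMod r → A) :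
    ∑ d ∈ D, φ (ρ g (i + d)) = ∑ d ∈ D, φ (π g i + d) := by
  have hinj : ∀ a ∈ D, ∀ b ∈ D, ρ g (i + a) - π g i = ρ g (i + b) - π g i → a = b := by
    intro a _ b _ h
    exact add_left_cancel ((ρ g).injective (sub_left_injective h))
  refine sum_bij (fun d _ => ρ g (i + d) - π g i) (inv_rel π ρ hs hs' hD g i) hinj ?_ ?_
  · intro b hb
    obtain ⟨a, ha, h⟩ := surj_on_of_inj_on_of_card_le (fun d _ => ρ g (i + d) - π g i)
      (inv_rel π ρ hs hs' hD g i) (fun a b ha hb h => hinj a ha b hb h) le_rfl b hb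
    exact ⟨a, ha, h.symm⟩
  · intro a _
    rw [add_sub_cancel]

/-- the circulant operator -/
def circ (K : Type*) [CommRing K] (D : Finset (ZMod r)) : Module.End K (ZMod r → K) where
  toFun φ x := ∑ d ∈ D, φ (x + d)
  map_add' φ ψ := by ext x; simp [sum_add_distrib]
  map_smul' c φ := by ext x; simp [mul_sum]

lemma circ_pow (K : Type*) [CommRing K] (π : L →* Perm (ZMod r)) {s : L}
    (hs : ∀ x, π s x = x + 1) (f : MulAut L) (hf : f s = s) {D : Finset (ZMod r)}
    (hD : ∀ h, π h 0 = 0 → ∀ d ∈ D, π (f h) d ∈ D) (m : ℕ) (g : L) (φ : ZMod r → K) :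
    (circ K D ^ m) (φ ∘ π ((f ^ m) g)) = ((circ K D ^ m) φ) ∘ π g := by
  induction m generalizing φ with
  | zero => simp
  | succ m ih =>
    have h1 : circ K D (φ ∘ π ((f ^ (m + 1)) g)) = (circ K D φ) ∘ π ((f ^ m) g) := by
      ext x
      rw [pow_succ', MulAut.mul_apply]
      exact sum_rel π (π.comp f.toMonoidHom) hs (fun x => by simp [hf, hs]) hD _ x φ
    rw [pow_succ, Module.End.mul_apply, h1, ih, Module.End.mul_apply]

lemma circ_char (D : Finset (ZMod r)) (φ : ZMod r → ZMod r) :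
    (circ (ZMod r) D ^ r) φ = (D.card : ZMod r) • φ := by
  have hT : ∀ (k : ℕ) (φ : ZMod r → ZMod r) (x : ZMod r),
      (circ (ZMod r) {1} ^ k) φ x = φ (x + k) := by
    intro k
    induction k with
    | zero => simp
    | succ k ih =>
      intro φ x
      rw [pow_succ, Module.End.mul_apply, ih]
      simp [circ, add_assoc]
  have h1 : circ (ZMod r) D =
      Polynomial.aeval (circ (ZMod r) {1}) (∑ d ∈ D, Polynomial.X ^ d.val : Polynomial (ZMod r)) := by
    ext φ x
    simp only [map_sum, map_pow, Polynomial.aeval_X, LinearMap.coe_comp, Function.comp_apply,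
      LinearMap.sum_apply, Finset.sum_apply, hT, ZMod.natCast_zmod_val]
    rfl
  rw [h1, ← map_pow, sum_pow_char]
  ext x
  simp only [map_sum, ← pow_mul, map_pow, Polynomial.aeval_X, LinearMap.sum_apply,
    Finset.sum_apply, hT]
  simp

lemma card_ne {D : Finset (ZMod r)} (h0 : D.Nonempty) (h1 : D ≠ univ) : (D.card : ZMod r) ≠ 0 := by
  rw [Ne, ZMod.natCast_eq_zero_iff]
  intro h
  have h2 : D.card < r := by
    have := card_lt_card (ssubset_univ_iff.2 h1)
    rwa [card_univ, ZMod.card] at this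
  exact absurd (Nat.le_of_dvd h0.card_pos h) (by omega)

/-- an automorphism fixing `s` has order dividing `r` -/
lemma pow_fix (π : L →* Perm (ZMod r)) {s : L} (hs : ∀ x, π s x = x + 1) (f : MulAut L)
    (hf : f s = s) {D : Finset (ZMod r)} (hD : ∀ h, π h 0 = 0 → ∀ d ∈ D, π (f h) d ∈ D)
    (h0 : D.Nonempty) (h1 : D ≠ univ) (g : L) : π ((f ^ r) g) = π g := by
  have h := circ_pow (ZMod r) π hs f hf hD r g id
  rw [circ_char, circ_char] at h
  ext x
  have h2 := congrFun h x
  simp only [Pi.smul_apply, Function.comp_apply, id, smul_eq_mul] at h2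
  exact mul_left_cancel₀ (card_ne h0 h1) h2

lemma coeff_const {ζ : ℂ} (hζ : IsPrimitiveRoot ζ r) (a : ZMod r → ℤ)
    (h : ∑ x, (a x : ℂ) * ζ ^ x.val = 0) (x y : ZMod r) : a x = a y := by
  obtain ⟨n, rfl⟩ : ∃ n, r = n + 1 := ⟨r - 1, by have := hr.out.pos; omega⟩
  exact (hζ.sum_eq_zero_iff_forall_eq_int hr.out a).1 h x y

/-- the multipliers of `D` -/
lemma mult_of (D : Finset (ZMod r)) (h0 : D.Nonempty) (h1 : D ≠ univ)
    (hψ : ∀ a : ZMod r, a ≠ 0 →
      (circ ℂ D ^ r) (Pi.single 0 1) a = (circ ℂ D ^ r) (Pi.single 0 1) 1) :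
    ∃ c : ZMod r, ∀ x y, x ≠ c → y ≠ c → x ∈ D → y ∈ D := by
  have hζ := Complex.isPrimitiveRoot_exp r hr.out.ne_zero
  set ζ := Complex.exp (2 * Real.pi * Complex.I / r) with hζd
  let e : AddChar (ZMod r) ℂ := AddChar.zmodChar r hζ.pow_eq_one
  have he : ∀ x, e x = ζ ^ x.val := fun x => AddChar.zmodChar_apply _ x
  have hΛ : ∀ (b : ZMod r) (m : ℕ) (φ : ZMod r → ℂ),
      ∑ x, (circ ℂ D ^ m) φ x * e (-(b * x)) =
        (∑ d ∈ D, e (b * d)) ^ m * ∑ x, φ x * e (-(b * x)) := by
    intro b m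
    induction m with
    | zero => simp
    | succ m ih =>
      intro φ
      rw [pow_succ, Module.End.mul_apply, ih, pow_succ, mul_assoc]
      congr 1
      simp only [circ, LinearMap.coe_mk, AddHom.coe_mk, sum_mul]
      rw [sum_comm]
      refine sum_congr rfl fun d _ => ?_
      rw [mul_sum, ← Equiv.sum_comp (Equiv.addRight d) fun x => e (b * d) * (φ x * e (-(b * x)))]
      refine sum_congr rfl fun x _ => ?_
      rw [Equiv.coe_addRight, mul_left_comm, ← AddChar.map_add_eq_mul]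
      congr 2
      ring
  have hsum : ∀ b : ZMod r, b ≠ 0 → ∑ x, e (-(b * x)) = 0 := by
    intro b hb
    have h2 : ∑ x, e (-(b * x)) = ∑ x, e x :=
      Equiv.sum_comp (Equiv.mulLeft₀ (-b) (neg_ne_zero.2 hb)) e ▸ by simp
    rw [h2]
    simp only [he]
    obtain ⟨n, rfl⟩ : ∃ n, r = n + 1 := ⟨r - 1, by have := hr.out.pos; omega⟩
    have h3 := (hζ.sum_eq_zero_iff_forall_eq_int hr.out fun _ => 1).2 fun _ _ => rfl
    simp only [Int.cast_one, one_mul] at h3
    exact h3
  set ψ := (circ ℂ D ^ r) (Pi.single 0 1) with hψd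
  have hα : ∀ b : ZMod r, b ≠ 0 → (∑ d ∈ D, e (b * d)) ^ r = ψ 0 - ψ 1 := by
    intro b hb
    have h2 := hΛ b r (Pi.single 0 1)
    have h3 : ∑ x, (Pi.single 0 1 : ZMod r → ℂ) x * e (-(b * x)) = 1 := by
      rw [Finset.sum_eq_single 0] <;> simp +contextual
    rw [h3, mul_one] at h2
    rw [← h2]
    have h4 : ∀ x, ψ x * e (-(b * x)) =
        ψ 1 * e (-(b * x)) + (if x = 0 then ψ 0 - ψ 1 else 0) := by
      intro x
      split_ifs with hx
      · subst hx; simp
      · rw [hψ x hx, add_zero]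
    simp only [← hψd, h4, sum_add_distrib, ← mul_sum, hsum b hb]
    simp
  have hind : ∀ (S : Finset (ZMod r)), ∑ d ∈ S, e d =
      ∑ x, ((if x ∈ S then 1 else 0 : ℤ) : ℂ) * ζ ^ x.val := by
    intro S
    simp [he]
  have hα1 : ∑ d ∈ D, e d ≠ 0 := by
    intro h
    rw [hind] at h
    obtain ⟨x, hx⟩ := h0
    obtain ⟨y, hy⟩ : ∃ y, y ∉ D := by
      by_contra h2
      push Not at h2
      exact h1 (eq_univ_of_forall h2)
    have := coeff_const hζ _ h x y
    simp [hx, hy] at this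
  refine ⟨(∑ d ∈ D, d) / D.card, fun x y hx hy hxD => ?_⟩
  set c := (∑ d ∈ D, d) / (D.card : ZMod r) with hc
  set b := (y - c) / (x - c) with hb
  have hb0 : b ≠ 0 := div_ne_zero (sub_ne_zero.2 hy) (sub_ne_zero.2 hx)
  have h2 : ((∑ d ∈ D, e (b * d)) / ∑ d ∈ D, e d) ^ r = 1 := by
    have h3 := hα 1 one_ne_zero
    simp only [one_mul] at h3
    rw [div_pow, hα b hb0, ← h3, div_self (pow_ne_zero _ hα1)]
  obtain ⟨j, -, hj⟩ := hζ.eq_pow_of_pow_eq_one h2
  have hj' : e j = ζ ^ j := AddChar.zmodChar_apply' _ j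
  have h3 : ∑ d ∈ D.map (Equiv.mulLeft₀ b hb0).toEmbedding, e d =
      ∑ d ∈ D.map (Equiv.addRight (j : ZMod r)).toEmbedding, e d := by
    rw [sum_map, sum_map]
    simp only [Equiv.coe_toEmbedding, Equiv.mulLeft₀_apply, Equiv.coe_addRight,
      AddChar.map_add_eq_mul, ← sum_mul]
    rw [hj', hj, mul_div_cancel₀ _ hα1]
  set A := D.map (Equiv.mulLeft₀ b hb0).toEmbedding with hA
  set B := D.map (Equiv.addRight (j : ZMod r)).toEmbedding with hB
  have h4 : ∀ u v, ((if u ∈ A then 1 else 0) - (if u ∈ B then 1 else 0) : ℤ) =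
      (if v ∈ A then 1 else 0) - (if v ∈ B then 1 else 0) := by
    refine coeff_const hζ _ ?_
    rw [hind, hind, ← sub_eq_zero, ← sum_sub_distrib] at h3
    rw [← h3]
    refine sum_congr rfl fun x _ => ?_
    push_cast
    ring
  have hAB : A = B := by
    have hc : A.card = B.card := by rw [hA, hB, card_map, card_map]
    refine eq_of_subset_of_card_le (fun u hu => ?_) hc.ge
    by_contra hu'
    have h5 : B ⊆ A := by
      intro v hv
      have := h4 u v
      by_contra hv'
      simp [hu, hu', hv, hv'] at this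
    exact hu' (eq_of_subset_of_card_le h5 hc.le ▸ hu)
  have h5 : ∑ d ∈ A, d = ∑ d ∈ B, d := by rw [hAB]
  rw [hA, hB, sum_map, sum_map] at h5
  simp only [Equiv.coe_toEmbedding, Equiv.mulLeft₀_apply, Equiv.coe_addRight,
    sum_add_distrib, sum_const, nsmul_eq_mul] at h5
  rw [← mul_sum] at h5
  have hk := card_ne h0 h1
  have h6 : (j : ZMod r) = b * c - c := by
    have h7 : c * D.card = ∑ d ∈ D, d := div_mul_cancel₀ _ hk
    refine mul_left_cancel₀ hk ?_
    linear_combination -h5 - (b - 1) * h7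
  have h7 : b * x ∈ B := hAB ▸ mem_map_of_mem _ hxD
  obtain ⟨d, hd, h8⟩ := mem_map.1 h7
  simp only [Equiv.coe_toEmbedding, Equiv.coe_addRight] at h8
  have h9 : b * (x - c) = y - c := div_mul_cancel₀ _ (sub_ne_zero.2 hx)
  have : d = y := by linear_combination h8 + h9 - h6
  exact this ▸ hd

/-- **an automorphism fixing `s` is conjugation by a power of `s`** -/
theorem aut_fix (π : L →* Perm (ZMod r)) (hπ : Function.Injective π) {s : L}
    (hs : ∀ x, π s x = x + 1) (h2 : ∀ a : ZMod r, a ≠ 0 → ∃ h, π h 0 = 0 ∧ π h 1 = a)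
    (f : MulAut L) (hf : f s = s) {D : Finset (ZMod r)}
    (hD : ∀ h, π h 0 = 0 → ∀ d ∈ D, π (f h) d ∈ D) (h0 : D.Nonempty) (h1 : D ≠ univ) :
    ∃ k : ℕ, f = MulAut.conj (s ^ k) := by
  obtain ⟨c, hc⟩ := mult_of D h0 h1 fun a ha => by
    obtain ⟨h, h3, h4⟩ := h2 a ha
    have h5 := circ_pow ℂ π hs f hf hD r h (Pi.single 0 1)
    rw [pow_fix π hs f hf hD h0 h1] at h5
    have h6 : (Pi.single 0 1 : ZMod r → ℂ) ∘ π h = Pi.single 0 1 := by
      ext x
      by_cases hx : x = 0
      · simp [hx, h3]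
      · have : π h x ≠ 0 := fun h7 => hx ((π h).injective (h7.trans h3.symm))
        simp [hx, this]
    rw [h6] at h5
    have h7 := congrFun h5 1
    rw [Function.comp_apply, h4] at h7
    exact h7.symm
  have hfix : ∀ h, π h 0 = 0 → ∀ d ∈ ({c} : Finset (ZMod r)), π (f h) d ∈ ({c} : Finset _) := by
    intro h hh d hd
    rw [mem_singleton] at hd ⊢
    subst hd
    by_contra hne
    have hinv : π h⁻¹ 0 = 0 := by rw [map_inv, Perm.inv_eq_iff_eq, hh]
    have h3 : d ∈ D ↔ π (f h) d ∈ D := ⟨hD h hh d, fun h4 => by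
      have := hD h⁻¹ hinv _ h4
      simpa using this⟩
    by_cases hd : d ∈ D
    · refine h1 (eq_univ_of_forall fun y => ?_)
      by_cases hy : y = d
      · exact hy ▸ hd
      · exact hc _ y hne hy (h3.1 hd)
    · obtain ⟨x, hx⟩ := h0
      exact hd (h3.2 (hc x _ (fun h4 => hd (h4 ▸ hx)) hne hx))
  refine ⟨c.val, MulEquiv.ext fun g => hπ (Equiv.ext fun x => ?_)⟩
  have h3 := inv_rel π (π.comp f.toMonoidHom) hs (fun x => by simp [hf, hs]) hfix g (x - c) c
    (mem_singleton_self c)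
  rw [mem_singleton, sub_add_cancel] at h3
  rw [MulAut.conj_apply, map_mul, map_mul, Perm.mul_apply, Perm.mul_apply, val_app π hs,
    val_app_inv π hs]
  exact sub_eq_iff_eq_add'.1 h3

end

end Vale.Agent.N240

/-!
Burnside's theorem on permutation groups of prime degree (the proof of P. Müller).
-/

namespace Vale.Agent.N240

section

open Equiv Finset Polynomial

variable {r : ℕ} [hr : Fact r.Prime]

lemma exists_psum {U : Finset (ZMod r)} (h0 : U.Nonempty) (hU : (0 : ZMod r) ∉ U) :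
    ∃ j, 1 ≤ j ∧ j ≤ U.card ∧ ∑ u ∈ U, u ^ j ≠ 0 := by
  by_contra h
  push Not at h
  obtain ⟨a, ha⟩ := h0
  set P : (ZMod r)[X] := X * ∏ u ∈ U.erase a, (X - C u) with hP
  have hd : P.natDegree < U.card + 1 := by
    have h1 : P.natDegree ≤ 1 + (U.erase a).card := by
      refine natDegree_mul_le.trans (add_le_add natDegree_X_le ?_)
      refine (natDegree_prod_le _ _).trans ?_
      simp
    rw [card_erase_of_mem ha] at h1
    have := card_pos.2 ⟨a, ha⟩
    omega
  have h1 : ∑ u ∈ U, P.eval u = 0 := by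
    simp only [eval_eq_sum_range' hd]
    rw [sum_comm]
    refine sum_eq_zero fun j hj => ?_
    rw [← mul_sum]
    rcases Nat.eq_zero_or_pos j with rfl | hj0
    · simp [hP]
    · rw [h j hj0 (by simpa [Nat.lt_succ_iff] using hj), mul_zero]
  rw [Finset.sum_eq_single_of_mem a ha] at h1
  · simp only [hP, eval_mul, eval_X, eval_prod, eval_sub, eval_C, mul_eq_zero, prod_eq_zero_iff,
      mem_erase, sub_eq_zero] at h1
    rcases h1 with rfl | ⟨u, hu, rfl⟩
    · exact hU ha
    · exact hu.1 rfl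
  · intro b hb hba
    simp only [hP, eval_mul, eval_X, eval_prod, eval_sub, eval_C, mul_eq_zero, prod_eq_zero_iff]
    exact Or.inr ⟨b, mem_erase.2 ⟨hba, hb⟩, sub_self b⟩

/-- Müller's lemma -/
lemma affine_of {U : Finset (ZMod r)} (h0 : U.Nonempty) (hU : (0 : ZMod r) ∉ U)
    (hc : 2 * U.card < r) (π : ZMod r → ZMod r) (hπ : π 0 ≠ π 1)
    (h : ∀ (w : ℕ) (i : ZMod r), ∑ u ∈ U, π (i + u) ^ w = ∑ u ∈ U, (π i + u) ^ w) :
    ∃ a b, ∀ x, π x = a * x + b := by
  classical
  set F : (ZMod r)[X] := Lagrange.interpolate univ id π with hF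
  have hev : ∀ x, F.eval x = π x := fun x =>
    Lagrange.eval_interpolate_at_node π (Function.injective_id.injOn) (mem_univ x)
  have hF0 : F ≠ 0 := by
    intro h1
    apply hπ
    rw [← hev, ← hev, h1, eval_zero, eval_zero]
  have hn : F.natDegree < r := by
    have h1 := Lagrange.degree_interpolate_lt π (s := univ) (v := id) Function.injective_id.injOn
    rw [card_univ, ZMod.card] at h1
    exact (natDegree_lt_iff_degree_lt hF0).2 h1
  by_cases h1 : F.natDegree ≤ 1
  · refine ⟨F.coeff 1, F.coeff 0, fun x => ?_⟩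
    rw [← hev]
    conv_lhs => rw [eq_X_add_C_of_natDegree_le_one h1]
    simp
  exfalso
  set n := F.natDegree with hnd
  set w := (r - 1) / n with hw
  have hn2 : 2 ≤ n := by omega
  have hN1 : n * w ≤ r - 1 := Nat.mul_div_le _ _
  have hN2 : r - 1 < n * w + n := by
    have := Nat.lt_mul_div_succ (r - 1) (show 0 < n by omega)
    rw [← hw] at this
    linarith
  have hw1 : 1 ≤ w := (Nat.one_le_div_iff (by omega)).2 (by omega)
  have hN3 : n ≤ n * w := Nat.le_mul_of_pos_right _ hw1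
  have hex := exists_psum h0 hU
  set ρ := Nat.find hex with hρ
  obtain ⟨hρ1, hρ2, hρ3⟩ : 1 ≤ ρ ∧ ρ ≤ U.card ∧ ∑ u ∈ U, u ^ ρ ≠ 0 := Nat.find_spec hex
  have hmin : ∀ j, 1 ≤ j → j < ρ → ∑ u ∈ U, u ^ j = 0 := by
    intro j hj hjρ
    by_contra h2
    exact Nat.find_min hex hjρ ⟨hj, by omega, h2⟩
  have hG : (F ^ w).natDegree = n * w := by rw [natDegree_pow, mul_comm]
  have hid : ∑ u ∈ U, taylor u (F ^ w) = ∑ u ∈ U, (C u + F) ^ w := by
    refine eq_of_natDegree_lt_card_of_eval_eq _ _ Function.injective_id (fun i => ?_) ?_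
    · simp only [id, eval_finset_sum, taylor_eval, eval_pow, eval_add, eval_C, hev, h]
      simp only [add_comm]
    · rw [ZMod.card, max_lt_iff]
      constructor
      · refine lt_of_le_of_lt (natDegree_sum_le_of_forall_le _ _ fun u _ => ?_)
          (show n * w < r by omega)
        rw [natDegree_taylor, hG]
      · refine lt_of_le_of_lt (natDegree_sum_le_of_forall_le _ _ fun u _ => ?_)
          (show n * w < r by omega)
        rw [natDegree_pow, natDegree_C_add, mul_comm]
  set m := n * w - ρ with hm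
  have hmρ : ρ + m = n * w := by omega
  have h2 := congrArg (fun P => coeff P m) hid
  simp only [finset_sum_coeff, taylor_coeff] at h2
  have hL : ∑ u ∈ U, (hasseDeriv m (F ^ w)).eval u = U.card * (F ^ w).coeff m +
      ((n * w).choose m * (F ^ w).coeff (n * w)) * ∑ u ∈ U, u ^ ρ := by
    have hd : (hasseDeriv m (F ^ w)).natDegree < ρ + 1 := by
      have := natDegree_hasseDeriv_le (F ^ w) m
      omega
    simp only [eval_eq_sum_range' hd]
    rw [sum_comm, sum_range_succ, ← mul_sum, hasseDeriv_coeff, hmρ]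
    congr 1
    rw [Finset.sum_eq_single_of_mem 0 (mem_range.2 hρ1)]
    · simp [hasseDeriv_coeff]
    · intro j hj hj0
      rw [← mul_sum, hmin j (by omega) (mem_range.1 hj), mul_zero]
  have hR : ∑ u ∈ U, ((C u + F) ^ w).coeff m = U.card * (F ^ w).coeff m := by
    simp only [add_pow, finset_sum_coeff, ← C_pow, ← C_eq_natCast, coeff_mul_C, coeff_C_mul]
    rw [sum_comm, Finset.sum_eq_single_of_mem 0 (mem_range.2 (by omega))]
    · simp
    · intro j hj hj0
      rw [← sum_mul, ← sum_mul]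
      by_cases hjρ : j < ρ
      · rw [hmin j (by omega) hjρ, zero_mul, zero_mul]
      · rw [coeff_eq_zero_of_natDegree_lt, mul_zero, zero_mul]
        rw [natDegree_pow, ← hnd]
        have h3 : j ≤ w := by simpa [Nat.lt_succ_iff] using hj
        have h4 : (w - j) * n + j * n = n * w := by
          rw [← add_mul, Nat.sub_add_cancel h3, mul_comm]
        have h5 : j * 2 ≤ j * n := Nat.mul_le_mul_left _ hn2
        omega
  rw [hL, hR, add_eq_left, mul_eq_zero, mul_eq_zero] at h2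
  rcases h2 with (h2 | h2) | h2
  · rw [ZMod.natCast_eq_zero_iff] at h2
    have h3 := hr.out.coprime_choose_of_lt (show n * w < r by omega) (show m ≤ n * w by omega)
    exact hr.out.one_lt.ne' (Nat.Coprime.eq_one_of_dvd h3 h2)
  · rw [← hG] at h2
    exact pow_ne_zero w hF0 (leadingCoeff_eq_zero.1 h2)
  · exact hρ3 h2

variable {L : Type*} [Group L]

/-- **Burnside's theorem** -/
theorem burnside (π : L →* Perm (ZMod r)) {s : L} (hs : ∀ x, π s x = x + 1) :
    (∀ a : ZMod r, a ≠ 0 → ∃ h, π h 0 = 0 ∧ π h 1 = a) ∨ ∀ g, ∃ a b, ∀ x, π g x = a * x + b := by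
  classical
  refine or_iff_not_imp_left.2 fun h g => ?_
  push Not at h
  obtain ⟨a, ha, h⟩ := h
  have key : ∀ U : Finset (ZMod r), U.Nonempty → 0 ∉ U → 2 * U.card < r →
      (∀ h, π h 0 = 0 → ∀ d ∈ U, π h d ∈ U) → ∃ a b, ∀ x, π g x = a * x + b :=
    fun U h0 hU hc hD => affine_of h0 hU hc _ ((π g).injective.ne zero_ne_one) fun w i =>
      sum_rel π π hs hs hD g i (· ^ w)
  set U : Finset (ZMod r) := univ.filter fun x => ∃ h, π h 0 = 0 ∧ π h 1 = x with hU
  set V : Finset (ZMod r) := (univ.erase 0) \ U with hV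
  have hU0 : 0 ∉ U := by
    simp only [hU, mem_filter, mem_univ, true_and]
    rintro ⟨h, h1, h2⟩
    exact one_ne_zero ((π h).injective (h2.trans h1.symm))
  have hUD : ∀ h, π h 0 = 0 → ∀ d ∈ U, π h d ∈ U := by
    simp only [hU, mem_filter, mem_univ, true_and]
    rintro h h1 d ⟨k, h2, rfl⟩
    exact ⟨h * k, by simp [h1, h2], by simp⟩
  have hsub : U ⊆ univ.erase 0 := fun x hx => mem_erase.2 ⟨fun h => hU0 (h ▸ hx), mem_univ x⟩
  have hcard : V.card + U.card = r - 1 := by
    rw [hV, card_sdiff_add_card_eq_card hsub, card_erase_of_mem (mem_univ _), card_univ, ZMod.card]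
  have := hr.out.pos
  by_cases hc : 2 * U.card < r
  · exact key U ⟨1, by simp only [hU, mem_filter, mem_univ, true_and]; exact ⟨1, by simp⟩⟩ hU0 hc
      hUD
  · refine key V ⟨a, ?_⟩ (by simp [hV]) (by omega) fun k hk d hd => ?_
    · simp only [hV, hU, mem_sdiff, mem_erase, mem_filter, mem_univ, true_and, and_true]
      exact ⟨ha, fun ⟨k, h1, h2⟩ => h k h1 h2⟩
    · simp only [hV, mem_sdiff, mem_erase, mem_univ, and_true] at hd ⊢
      refine ⟨fun h1 => hd.1 ((π k).injective (h1.trans hk.symm)), fun h1 => hd.2 ?_⟩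
      have h2 := hUD k⁻¹ (by rw [map_inv, Perm.inv_eq_iff_eq, hk]) _ h1
      simpa using h2

/-- simple groups of prime degree are doubly transitive -/
theorem two_trans (hL : IsSimpleGroup L) (hn : ∃ x y : L, x * y ≠ y * x)
    (π : L →* Perm (ZMod r)) (hπ : Function.Injective π) {s : L} (hs : ∀ x, π s x = x + 1) :
    ∀ a : ZMod r, a ≠ 0 → ∃ h, π h 0 = 0 ∧ π h 1 = a := by
  refine (burnside π hs).resolve_right fun h => ?_
  have h1 : ∀ g x, π g x = (π g 1 - π g 0) * x + π g 0 := by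
    intro g x
    obtain ⟨a, b, h2⟩ := h g
    simp [h2]
  let χ : L →* ZMod r :=
    { toFun := fun g => π g 1 - π g 0
      map_one' := by simp
      map_mul' := fun g k => by
        simp only [map_mul, Perm.mul_apply]
        rw [h1 g (π k 1), h1 g (π k 0)]
        ring }
  let K : Subgroup L := (χ.toHomUnits).ker
  have hK : ∀ g, g ∈ K ↔ π g 1 - π g 0 = 1 := fun g => by
    rw [MonoidHom.mem_ker, ← Units.val_eq_one, MonoidHom.coe_toHomUnits]
    rfl
  have hs1 : s ≠ 1 := by
    intro h2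
    have := hs 0
    simp [h2] at this
  rcases hL.eq_bot_or_eq_top_of_normal K inferInstance with h2 | h2
  · have h3 : s ∈ K := (hK s).2 (by simp [hs])
    rw [h2] at h3
    exact hs1 (Subgroup.mem_bot.1 h3)
  · obtain ⟨x, y, hxy⟩ := hn
    have h3 : ∀ g z, π g z = z + π g 0 := fun g z => by
      rw [h1, (hK g).1 (h2 ▸ Subgroup.mem_top g), one_mul]
    refine hxy (hπ (Equiv.ext fun z => ?_))
    simp only [map_mul, Perm.mul_apply]
    rw [h3 x, h3 y z, h3 y (π x z), h3 x z]
    ring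

end

end Vale.Agent.N240
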