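import Vale.Agent.P240.Defs
import Vale.Agent.P240.V.QDefs

/-!
The Mathieu groups; simple groups with a subgroup of prime index.
-/

set_option autoImplicit false

namespace Vale.Agent.N240

open Equiv Subgroup

/-- The product of the cycles in the list `l`. -/
def cyc {n : ℕ} (l : List (List (Fin n))) : Perm (Fin n) := (l.map List.formPerm).prod

/-- The Mathieu group `M₁₁`. -/
def M11 : Subgroup (Perm (Fin 11)) :=
  closure {cyc [[0, 1, 2, 3, 4, 5, 6, 7, 8, 9, 10]], cyc [[2, 6, 10, 7], [3, 9, 4, 5]]}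

/-- The Mathieu group `M₁₂`. -/
def M12 : Subgroup (Perm (Fin 12)) :=
  closure {cyc [[0, 1, 2, 3, 4, 5, 6, 7, 8, 9, 10]], cyc [[2, 6, 10, 7], [3, 9, 4, 5]],
    cyc [[0, 11], [1, 10], [2, 5], [3, 7], [4, 8], [6, 9]]}

/-- The Mathieu group `M₂₂`. -/
def M22 : Subgroup (Perm (Fin 22)) :=
  closure {cyc [[0, 1, 2, 3, 4, 5, 6, 7, 8, 9, 10], [11, 12, 13, 14, 15, 16, 17, 18, 19, 20, 21]],
    cyc [[0, 3, 4, 8, 2], [1, 7, 9, 6, 5], [11, 14, 15, 19, 13], [12, 18, 20, 17, 16]],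
    cyc [[0, 20], [1, 9, 7, 5], [2, 12, 3, 16], [4, 18, 8, 17], [10, 21], [11, 13, 15, 19]]}

/-- The Mathieu group `M₂₃`. -/
def M23 : Subgroup (Perm (Fin 23)) :=
  closure {cyc [[0, 1, 2, 3, 4, 5, 6, 7, 8, 9, 10, 11, 12, 13, 14, 15, 16, 17, 18, 19, 20, 21, 22]],
    cyc [[2, 16, 9, 6, 8], [3, 12, 13, 18, 4], [7, 17, 10, 11, 22], [14, 19, 21, 20, 15]]}

/-- The Mathieu group `M₂₄`. -/
def M24 : Subgroup (Perm (Fin 24)) :=
  closure {cyc [[0, 1, 2, 3, 4, 5, 6, 7, 8, 9, 10, 11, 12, 13, 14, 15, 16, 17, 18, 19, 20, 21, 22]],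
    cyc [[2, 16, 9, 6, 8], [3, 12, 13, 18, 4], [7, 17, 10, 11, 22], [14, 19, 21, 20, 15]],
    cyc [[0, 23], [1, 22], [2, 11], [3, 15], [4, 17], [5, 9], [6, 19], [7, 13], [8, 20], [10, 16],
      [12, 21], [14, 18]]}

/-- `L` is isomorphic to one of the five Mathieu groups. -/
def Mathieu (L : Type*) [Group L] : Prop :=
  Nonempty (L ≃* M11) ∨ Nonempty (L ≃* M12) ∨ Nonempty (L ≃* M22) ∨ Nonempty (L ≃* M23) ∨
    Nonempty (L ≃* M24)

/-- `L` has a subgroup of prime index. -/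
def PrimeIndex (L : Type*) [Group L] : Prop := ∃ H : Subgroup L, H.index.Prime

/-- `L` has an element `s` of prime order such that every automorphism fixing `s` is conjugation by a
power of `s`, and, if the order of `s` is not `p`, `s` normalizes no member of `𝒜ₚ(L)`. -/
def SelfCent (p : ℕ) (L : Type*) [Group L] : Prop :=
  ∃ s : L, (orderOf s).Prime ∧ (∀ f : MulAut L, f s = s → ∃ k : ℕ, f = MulAut.conj (s ^ k)) ∧
    (orderOf s ≠ p → ∀ E : P240.Ap p L, s ∉ normalizer (E.1 : Set L))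

/-- `L` has a proper subgroup whose index is a power of `r`. -/
def PowIndex (r : ℕ) (L : Type*) [Group L] : Prop :=
  ∃ (H : Subgroup L) (a : ℕ), 0 < a ∧ H.index = r ^ a

/-- `L` is of characteristic `r` type: the normalizer `N` of every nontrivial `r`-subgroup `X` has a
normal `r`-subgroup `Y` with `C_N(Y) ≤ Y` (that is, `F*(N) = O_r(N)`). Moreover a Sylow `r`-subgroup
has a normal subgroup `(ℤ/r)²`, and `𝒜ᵣ(L)` is connected (no strongly `r`-embedded subgroup). -/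
def CharType (r : ℕ) (L : Type*) [Group L] : Prop :=
  (∀ X : Subgroup L, X ≠ ⊥ → IsPGroup r X → ∃ Y : Subgroup L, IsPGroup r Y ∧
    Y ≤ normalizer (X : Set L) ∧ normalizer (X : Set L) ≤ normalizer (Y : Set L) ∧
      centralizer (Y : Set L) ⊓ normalizer (X : Set L) ≤ Y) ∧
  (∃ (R : Sylow r L) (A : P240.Ap r L), Nat.card A.1 = r ^ 2 ∧ A.1 ≤ R ∧
    (R : Subgroup L) ≤ normalizer (A.1 : Set L)) ∧
  ∀ A B : P240.Ap r L, Relation.ReflTransGen (fun X Y => X ≤ Y ∨ Y ≤ X) A B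

/-- `N` has a normal subgroup `Y ≤ R` with `C_N(Y) ≤ Y`. -/
def CharIn {L : Type*} [Group L] (R N : Subgroup L) : Prop :=
  ∃ Y : Subgroup L, Y ≤ R ⊓ N ∧ N ≤ normalizer (Y : Set L) ∧ centralizer (Y : Set L) ⊓ N ≤ Y

/-- Two properties of the group `F` of fixed points of an automorphism of order `p`: if `Y` and `g Y g⁻¹`
lie in `F`, then the numbers of elements of `F` and of `L` that act on `Y` like `g` are congruent modulo
`p`; and, for `p = 2`, the inequality of Brauer and Fowler. -/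
def Fixable (p : ℕ) {L : Type*} [Group L] (F : Subgroup L) : Prop :=
  (∀ Y ≤ F, ∀ g : L, (∀ y ∈ Y, g * y * g⁻¹ ∈ F) →
    {x | x ∈ F ∧ ∀ y ∈ Y, x * y * x⁻¹ = g * y * g⁻¹}.ncard ≡
      Nat.card (centralizer (Y : Set L)) [MOD p]) ∧
  (p = 2 → F.index ^ 2 + Nat.card L ≤ Nat.card (ConjClasses L) * Nat.card L + F.index)

/-- No proper subgroup containing `S` is `Fixable`. -/
def Rigid (p : ℕ) {L : Type*} [Group L] (S : Subgroup L) : Prop :=
  ∀ F : Subgroup L, S ≤ F → Fixable p F → F = ⊤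

/-- `L` has an element `s` such that `⟨s⟩` is `Rigid`, and the poset of the members of `𝒜ₚ(L)` that are
normalized by `s` has nonzero reduced Euler characteristic. -/
def Inner (p : ℕ) (L : Type*) [Group L] : Prop :=
  ∃ s : L, P240.Q.eulerFix p ⊤ s ≠ 0 ∧ Rigid p (zpowers s)

/-- Let `R` be a Sylow `r`-subgroup of `L`. The group `L` is generated by the normalizers of the
subgroups `Y ≤ R` with `C_L(Y) ≤ Y`, or `R` is `Rigid`. Moreover `R` normalizes no member of `𝒜ₚ(L)`; or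
`R` has a subgroup `A ∈ 𝒜ᵣ(L)` such that `A ≅ (ℤ/r)²` is normal in `R` and the normalizers of the
nontrivial subgroups of `A` have characteristic `r`, or such that `CharIn R (C_L(B))` holds for all
subgroups `B` of index `r` of `A`. -/
def LocChar (p r : ℕ) (L : Type*) [Group L] : Prop :=
  ∃ R : Sylow r L,
    (⨆ Y ∈ {Y : Subgroup L | Y ≤ R ∧ centralizer (Y : Set L) ≤ Y}, normalizer (Y : Set L) = ⊤ ∨
      Rigid p (R : Subgroup L)) ∧
    ((∀ E : P240.Ap p L, ¬ (R : Subgroup L) ≤ normalizer (E.1 : Set L)) ∨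
      ∃ A : P240.Ap r L, A.1 ≤ R ∧
        ((Nat.card A.1 = r ^ 2 ∧ (R : Subgroup L) ≤ normalizer (A.1 : Set L) ∧
          ∀ X ≤ A.1, X ≠ ⊥ → ∃ S : Sylow r L, CharIn S (normalizer (X : Set L))) ∨
        ∀ B ≤ A.1, B.relIndex A.1 = r → CharIn R (centralizer (B : Set L))))

/-- `CharType r`, `LocChar p r` or `PowIndex r`. -/
def Loc (p r : ℕ) (L : Type*) [Group L] : Prop := CharType r L ∨ LocChar p r L ∨ PowIndex r L

/-- The groups that are eliminated as components, for homology with coefficients in `𝕜`. -/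
def New (𝕜 : Type*) [Field 𝕜] (p : ℕ) (L : Type*) [Group L] : Prop :=
  Mathieu L ∨ PrimeIndex L ∨ SelfCent p L ∨ ∃ r : ℕ, r.Prime ∧ r ≠ p ∧ (r : 𝕜) = 0 ∧ Loc p r L

/-- `New`, or `Inner`, or `Loc p l`, where `l = 2` for odd `p` and `l = 3` for `p = 2`. -/
def NewL (𝕜 : Type*) [Field 𝕜] (p : ℕ) (L : Type*) [Group L] : Prop :=
  New 𝕜 p L ∨ Inner p L ∨ Loc p (if p = 2 then 3 else 2) L

end Vale.Agent.N240
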