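import Mathlib.RingTheory.ZMod.UnitsCyclic
import Vale.Agent.N240.Defs
import Vale.Agent.P240.H195.CF
import Vale.Agent.P240.R2.H487.N.D

/-!
Groups with an element of prime order that is self-centralizing in the automorphism group.
-/

set_option autoImplicit false
set_option linter.all false

namespace Vale.Agent.N240

open Subgroup Vale.Agent.P240 Vale.Agent.P240.K Vale.Agent.P240.H195 Vale.Agent.P240.R2.H487.N

lemma sylow_eq {A : Type*} [Group A] [Finite A] {r : ℕ} [hr : Fact r.Prime] {σ : A}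
    (ho : orderOf σ = r) (hC : ∀ f, f * σ = σ * f → f ∈ zpowers σ) :
    ∃ P : Sylow r A, (P : Subgroup A) = zpowers σ := by
  have hZ : IsPGroup r (zpowers σ) := IsPGroup.of_card (n := 1) (by
    rw [Nat.card_zpowers, ho, pow_one])
  obtain ⟨P, hP⟩ := hZ.exists_le_sylow
  refine ⟨P, le_antisymm (fun x hx => hC x ?_) hP⟩
  have hσ : σ ∈ (P : Subgroup A) := hP (mem_zpowers σ)
  have hσ1 : σ ≠ 1 := fun h => hr.out.one_lt.ne (by rw [← ho, h, orderOf_one])
  have : Nontrivial (P : Subgroup A) := ⟨⟨⟨σ, hσ⟩, 1, fun h => hσ1 (congrArg Subtype.val h)⟩⟩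
  have := P.isPGroup'.center_nontrivial
  obtain ⟨z, hz⟩ := exists_ne (1 : center (P : Subgroup A))
  have hz1 : ∀ y : (P : Subgroup A), y.1 * z.1.1 = z.1.1 * y.1 := fun y =>
    congrArg Subtype.val (mem_center_iff.1 z.2 y)
  have hz2 : z.1.1 ∈ zpowers σ := hC _ (hz1 ⟨σ, hσ⟩).symm
  have h1 : (⟨σ, mem_zpowers σ⟩ : zpowers σ) ∈ zpowers (⟨z.1.1, hz2⟩ : zpowers σ) :=
    mem_zpowers_of_prime_card (p := r) (by rw [Nat.card_zpowers, ho])
      fun h => hz (Subtype.ext (Subtype.ext (show z.1.1 = 1 from congrArg Subtype.val h)))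
  obtain ⟨k, hk⟩ := h1
  have h2 : z.1.1 ^ k = σ := congrArg Subtype.val hk
  rw [← h2]
  exact (Commute.zpow_right (hz1 ⟨x, hx⟩) k)

lemma cyc_mem {Q : Type*} [Group Q] [Finite Q] [IsCyclic Q] {p : ℕ} [hp : Fact p.Prime] {x y : Q}
    (hx : x ≠ 1) (hxp : x ^ p = 1) (hyp : y ^ p = 1) : y ∈ zpowers x := by
  classical
  have := Fintype.ofFinite Q
  have h1 := IsCyclic.card_pow_eq_one_le (α := Q) hp.out.pos
  have h2 : (Finset.univ.filter (· ∈ zpowers x)) ⊆ Finset.univ.filter fun a : Q => a ^ p = 1 := by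
    intro a ha
    simp only [Finset.mem_filter, Finset.mem_univ, true_and] at ha ⊢
    obtain ⟨k, rfl⟩ := ha
    simp only []
    rw [← zpow_natCast, ← zpow_mul, mul_comm, zpow_mul, zpow_natCast, hxp, one_zpow]
  have h3 : (Finset.univ.filter (· ∈ zpowers x)).card = p := by
    rw [← orderOf_eq_prime hxp hx, ← Nat.card_zpowers, Nat.card_eq_fintype_card,
      Fintype.card_subtype]
  have h4 := Finset.eq_of_subset_of_card_le h2 (h1.trans h3.ge)
  have h5 : y ∈ Finset.univ.filter (· ∈ zpowers x) := by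
    rw [h4]
    simpa using hyp
  simpa using h5

variable {L : Type*} [Group L]

lemma conj_inj (hZ : ∀ x : L, (∀ y, x * y = y * x) → x = 1) :
    Function.Injective (MulAut.conj (G := L)) := by
  refine (injective_iff_map_eq_one _).2 fun x hx => hZ x fun y => ?_
  have h2 : MulAut.conj x y = y := by rw [hx]; rfl
  rw [MulAut.conj_apply] at h2
  calc x * y = x * y * x⁻¹ * x := by group
    _ = y * x := by rw [h2]

lemma conj_conj (f : MulAut L) (x : L) : f * MulAut.conj x * f⁻¹ = MulAut.conj (f x) := by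
  ext y
  simp

theorem SelfCent.cases [Finite L] {p : ℕ} [hp : Fact p.Prime]
    (hZ : ∀ x : L, (∀ y, x * y = y * x) → x = 1) (h : SelfCent p L) :
    CycAut p L ∨ (FewAut p L ∧ ∃ r : ℕ, r.Prime ∧ AutFree p r L) := by
  obtain ⟨s, hr, hs, hE⟩ := h
  have : Fact (orderOf s).Prime := ⟨hr⟩
  have hinj := conj_inj hZ
  have ho : orderOf (MulAut.conj s) = orderOf s := orderOf_injective _ hinj s
  have hC0 : ∀ f : MulAut L, f s = s → f ∈ zpowers (MulAut.conj s) := fun f hf => by
    obtain ⟨k, rfl⟩ := hs f hf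
    rw [map_pow]
    exact pow_mem (mem_zpowers _) k
  have hC : ∀ f : MulAut L, f * MulAut.conj s = MulAut.conj s * f → f ∈ zpowers (MulAut.conj s) :=
    fun f hf => hC0 f (hinj (by rw [← conj_conj, hf, mul_inv_cancel_right]))
  obtain ⟨P, hP⟩ := sylow_eq ho hC
  by_cases hps : orderOf s = p
  · left
    subst hps
    intro Q
    have : IsCyclic P := by
      show IsCyclic (P : Subgroup (MulAut L))
      rw [hP]
      infer_instance
    exact isCyclic_of_surjective (P.equiv Q) (P.equiv Q).surjective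
  right
  have hle : zpowers (MulAut.conj s) ≤ (MulAut.conj (G := L)).range := by
    rw [zpowers_le]
    exact ⟨s, rfl⟩
  refine ⟨?_, orderOf s, hr, zpowers s, IsPGroup.of_card (n := 1) (by
    rw [Nat.card_zpowers, pow_one]), fun E hE1 hE2 => ?_⟩
  · have hn : (MulAut.conj (G := L)).range.Normal := ⟨by
      rintro _ ⟨x, rfl⟩ f
      exact ⟨f x, (conj_conj f x).symm⟩⟩
    have htop := P.normalizer_sup_eq_top' (N := (MulAut.conj (G := L)).range) (hP ▸ hle)
    have hc : IsCyclic (MulAut (P : Subgroup (MulAut L))) := by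
      have : IsCyclic (P : Subgroup (MulAut L)) := by rw [hP]; infer_instance
      have h1 : Nat.card (P : Subgroup (MulAut L)) = orderOf s := by rw [hP, Nat.card_zpowers, ho]
      have h2 : IsCyclic (ZMod (Nat.card (P : Subgroup (MulAut L))))ˣ := by
        rw [h1]
        exact ZMod.isCyclic_units_prime hr
      exact isCyclic_of_surjective _ (IsCyclic.mulAutMulEquiv _).symm.surjective
    set φ := (P : Subgroup (MulAut L)).normalizerMonoidHom with hφ
    obtain ⟨⟨_, f0, rfl⟩, hf0⟩ := IsCyclic.exists_generator (α := φ.range)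
    set mk := QuotientGroup.mk' (MulAut.conj (G := L)).range with hmk
    have hQ : IsCyclic (MulAut L ⧸ (MulAut.conj (G := L)).range) := by
      refine ⟨⟨mk f0, fun q => ?_⟩⟩
      obtain ⟨f, rfl⟩ := QuotientGroup.mk'_surjective _ q
      have h1 : normalizer ((P : Subgroup (MulAut L)) : Set (MulAut L)) ⊔
          (MulAut.conj (G := L)).range ≤ (zpowers (mk f0)).comap mk := by
        refine sup_le (fun g hg => ?_) fun g hg => ?_
        · obtain ⟨k, hk⟩ := hf0 ⟨φ ⟨g, hg⟩, _, rfl⟩
          have h2 : φ (f0 ^ k) = φ ⟨g, hg⟩ := by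
            rw [map_zpow]
            exact congrArg Subtype.val hk
          have h3 : (f0 ^ k)⁻¹ * ⟨g, hg⟩ ∈ φ.ker := by
            rw [MonoidHom.mem_ker, map_mul, map_inv, h2, inv_mul_cancel]
          rw [hφ, normalizerMonoidHom_ker, mem_subgroupOf] at h3
          have h4 := hle (hC _ (mem_centralizer_iff.1 h3 _ (hP ▸ mem_zpowers _)).symm)
          refine ⟨k, ?_⟩
          simp only []
          rw [← map_zpow]
          exact QuotientGroup.eq.2 h4
        · rw [mem_comap, (QuotientGroup.eq_one_iff g).2 hg |> (show mk g = 1 from ·)]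
          exact one_mem _
      exact h1 (by erw [htop]; exact mem_top f)
    have key : ∀ f g : MulAut L, OutAut p f → OutAut p g →
        g ∈ zpowers f ⊔ (MulAut.conj (G := L)).range := by
      intro f g hf hg
      obtain ⟨k, hk⟩ := cyc_mem (p := p) (x := mk f) (y := mk g)
        (fun h => hf.2 ((QuotientGroup.eq_one_iff f).1 h)) (by rw [← map_pow, hf.1, map_one])
        (by rw [← map_pow, hg.1, map_one])
      simp only [] at hk
      rw [← map_zpow] at hk
      have h1 : g = f ^ k * ((f ^ k)⁻¹ * g) := by group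
      rw [h1]
      exact mul_mem (mem_sup_left (zpow_mem (mem_zpowers f) k))
        (mem_sup_right (QuotientGroup.eq.1 hk))
    exact ⟨fun f g h hf hg _ => Or.inl (key f g hf hg), Or.inl key⟩
  · have hσ : MulAut.conj s ∈ normalizer (E : Set (MulAut L)) :=
      hE2 (mem_map_of_mem _ (mem_zpowers s))
    have h0 : E.comap MulAut.conj = ⊥ := by
      by_contra h0
      refine hE hps ⟨E.comap MulAut.conj, h0, fun x hx y hy => hinj ?_, fun x hx => hinj ?_⟩ ?_
      · rw [map_mul, map_mul]
        exact hE1.2.1 _ hx _ hy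
      · rw [map_pow, map_one]
        exact hE1.2.2 _ hx
      · refine mem_normalizer_iff.2 fun x => ?_
        have := mem_normalizer_iff.1 hσ (MulAut.conj x)
        simpa only [SetLike.mem_coe, mem_comap, map_mul, map_inv] using this
    refine hE1.1 (eq_bot_iff.2 fun e he => mem_bot.2 ?_)
    have h1 : s * (e s)⁻¹ ∈ E.comap MulAut.conj := by
      rw [mem_comap, map_mul, map_inv, ← conj_conj]
      have h2 := mul_mem ((mem_normalizer_iff.1 hσ e).1 he) (inv_mem he)
      convert h2 using 1
      group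
    rw [h0, mem_bot, mul_inv_eq_one] at h1
    have h2 := orderOf_dvd_of_mem_zpowers (hC0 e h1.symm)
    have h3 := orderOf_dvd_of_pow_eq_one (hE1.2.2 e he)
    rw [ho] at h2
    exact orderOf_eq_one_iff.1
      (Nat.eq_one_of_dvd_coprimes ((Nat.coprime_primes hr hp.out).2 hps) h2 h3)

lemma SelfCent.congr {p : ℕ} {L' : Type*} [Group L'] (e : L ≃* L') (h : SelfCent p L') :
    SelfCent p L := by
  obtain ⟨s, hr, hs, hE⟩ := h
  have ho : orderOf (e.symm s) = orderOf s := e.symm.orderOf_eq s
  refine ⟨e.symm s, ho ▸ hr, fun f hf => ?_, fun hp E h1 => ?_⟩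
  · obtain ⟨k, hk⟩ := hs (e.symm.trans (f.trans e)) (by simp [hf])
    refine ⟨k, MulEquiv.ext fun x => e.injective ?_⟩
    have := MulEquiv.congr_fun hk (e x)
    simp only [MulEquiv.trans_apply, MulEquiv.symm_apply_apply, MulAut.conj_apply] at this
    rw [this, MulAut.conj_apply, map_mul, map_mul, map_inv, map_pow, MulEquiv.apply_symm_apply]
  · refine hE (ho ▸ hp) ⟨E.1.comap e.symm.toMonoidHom, fun h2 => E.2.1 ?_,
      fun x hx y hy => e.symm.injective ?_, fun x hx => e.symm.injective ?_⟩ ?_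
    · refine eq_bot_iff.2 fun x hx => mem_bot.2 (e.injective ?_)
      have : e x ∈ E.1.comap e.symm.toMonoidHom := by simpa using hx
      rw [h2] at this
      simpa using this
    · rw [map_mul, map_mul]
      exact E.2.2.1 _ hx _ hy
    · rw [map_pow, map_one]
      exact E.2.2.2 _ hx
    · refine mem_normalizer_iff.2 fun x => ?_
      have := mem_normalizer_iff.1 h1 (e.symm x)
      simpa using this

end Vale.Agent.N240
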