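import Vale.Agent.N240.Burn
import Vale.Agent.N240.SC

/-!
Simple groups with a subgroup of prime index.
-/

set_option autoImplicit false
set_option linter.all false

namespace Vale.Agent.N240

open Equiv Subgroup Vale.Agent.P240

lemma no_fix {Ω : Type*} [Fintype Ω] (h1 : (Fintype.card Ω).Prime) {σ : Perm Ω}
    (h2 : orderOf σ = Fintype.card Ω) (x : Ω) : σ x ≠ x := by
  classical
  have h3 := (Perm.isCycle_of_prime_order'' h1 h2).orderOf
  rw [h2] at h3
  have h4 : σ.support = Finset.univ := Finset.eq_univ_of_card _ h3.symm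
  exact Perm.mem_support.1 (h4 ▸ Finset.mem_univ x)

variable {L : Type*} [Group L]

lemma ap_pgroup {p : ℕ} (E : Ap p L) : IsPGroup p E.1 := fun x =>
  ⟨1, by rw [pow_one]; exact Subtype.ext (E.2.2.2 x x.2)⟩

/-- the orbits of a `p`-subgroup have `p`-power length -/
lemma orbit_card {p : ℕ} [Fact p.Prime] {Ω : Type*} [Fintype Ω] [DecidableEq Ω] (π : L →* Perm Ω)
    {E : Subgroup L} (hE : IsPGroup p E) (x : Ω) (O : Finset Ω)
    (hO : ∀ y, y ∈ O ↔ ∃ e ∈ E, π e x = y) : ∃ n : ℕ, O.card = p ^ n := by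
  letI : MulAction E Ω := MulAction.compHom _ (π.comp E.subtype)
  obtain ⟨n, hn⟩ := hE.card_orbit x
  refine ⟨n, ?_⟩
  rw [← hn, ← Nat.card_eq_finsetCard]
  refine Nat.card_congr (Equiv.subtypeEquivRight fun y => ?_)
  rw [hO]
  exact ⟨fun ⟨e, he, h⟩ => ⟨⟨e, he⟩, h⟩, fun ⟨e, h⟩ => ⟨e.1, e.2, h⟩⟩

theorem selfCent_of_model [Finite L] (hL : IsSimpleGroup L) (hn : ∃ x y : L, x * y ≠ y * x)
    {r : ℕ} [hr : Fact r.Prime] (π : L →* Perm (ZMod r)) (hπ : Function.Injective π) {s : L}
    (hs : ∀ x, π s x = x + 1) {p : ℕ} [hp : Fact p.Prime] : SelfCent p L := by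
  classical
  have ho : orderOf s = r := by
    refine orderOf_eq_prime (hπ (Equiv.ext fun x => ?_)) fun h => ?_
    · rw [pow_app π hs]
      simp
    · have := hs 0
      simp [h] at this
  refine ⟨s, ho ▸ hr.out, fun f hf => ?_, fun hps E hE => ?_⟩
  · refine aut_fix π hπ hs (two_trans hL hn π hπ hs) f hf
      (D := Finset.univ.filter fun x => ∃ h, π h 0 = 0 ∧ π (f h) 0 = x) ?_
      ⟨0, by simp only [Finset.mem_filter, Finset.mem_univ, true_and]; exact ⟨1, by simp⟩⟩ ?_
    · simp only [Finset.mem_filter, Finset.mem_univ, true_and]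
      rintro h h1 d ⟨k, h2, rfl⟩
      exact ⟨h * k, by simp [h1, h2], by simp⟩
    · intro hD
      let H : Subgroup L := (MulAction.stabilizer (Perm (ZMod r)) (0 : ZMod r)).comap π
      letI : MulAction H (ZMod r) := MulAction.compHom _ ((π.comp f.toMonoidHom).comp H.subtype)
      have h1 : MulAction.orbit H (0 : ZMod r) = Set.univ := by
        refine Set.eq_univ_of_forall fun x => ?_
        have h2 : x ∈ Finset.univ := Finset.mem_univ x
        rw [← hD] at h2
        obtain ⟨h, h3, h4⟩ := (Finset.mem_filter.1 h2).2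
        exact ⟨⟨h, h3⟩, h4⟩
      have h2 := (MulAction.stabilizer H (0 : ZMod r)).index_dvd_card
      rw [MulAction.index_stabilizer, h1, Set.ncard_univ, Nat.card_zmod] at h2
      obtain ⟨h, h3⟩ := exists_prime_orderOf_dvd_card' r h2
      refine no_fix (σ := π h) (by rw [ZMod.card]; exact hr.out) ?_ 0 h.2
      rw [ZMod.card, orderOf_injective π hπ, Subgroup.orderOf_coe, h3]
  · letI : MulAction E.1 (ZMod r) := MulAction.compHom _ (π.comp E.1.subtype)
    obtain ⟨x, hx⟩ := (ap_pgroup E).nonempty_fixed_point_of_prime_not_dvd_card (ZMod r) (by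
      rw [Nat.card_zmod, Nat.prime_dvd_prime_iff_eq hp.out hr.out]
      exact fun h => hps (ho.trans h.symm))
    have h1 : ∀ k : ℕ, ∀ e ∈ E.1, π e (x + k) = x + k := by
      intro k
      induction k with
      | zero => exact fun e he => by rw [Nat.cast_zero, add_zero]; exact hx ⟨e, he⟩
      | succ k ih =>
        intro e he
        have h2 := ih (s⁻¹ * e * s) (by
          have := (mem_normalizer_iff.1 (inv_mem hE) e).1 he
          rwa [inv_inv] at this)
        rw [map_mul, map_mul, Perm.mul_apply, Perm.mul_apply, map_inv, Perm.inv_eq_iff_eq, hs] at h2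
        rwa [Nat.cast_succ, ← add_assoc]
    refine E.2.1 (eq_bot_iff.2 fun e he => mem_bot.2 (hπ (Equiv.ext fun y => ?_)))
    have h2 := h1 (y - x).val e he
    rw [ZMod.natCast_zmod_val, add_sub_cancel] at h2
    simpa using h2

theorem PrimeIndex.selfCent [Finite L] (hL : IsSimpleGroup L) (hn : ∃ x y : L, x * y ≠ y * x)
    (h : PrimeIndex L) {p : ℕ} [hp : Fact p.Prime] : SelfCent p L := by
  classical
  obtain ⟨H, hH⟩ := h
  set r := H.index with hrd
  have hr : Fact r.Prime := ⟨hH⟩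
  have := Fintype.ofFinite (L ⧸ H)
  have hc : Fintype.card (L ⧸ H) = r := by rw [hrd, index_eq_card, Nat.card_eq_fintype_card]
  set ρ := MulAction.toPermHom L (L ⧸ H) with hρ
  have hinj : Function.Injective ρ := by
    rw [← MonoidHom.ker_eq_bot_iff, hρ, ← normalCore_eq_ker]
    refine (hL.eq_bot_or_eq_top_of_normal _ inferInstance).resolve_right fun h => hH.one_lt.ne' ?_
    rw [hrd, index_eq_one, eq_top_iff, ← h]
    exact H.normalCore_le
  obtain ⟨s, hs⟩ := exists_prime_orderOf_dvd_card' r H.index_dvd_card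
  have ho : orderOf (ρ s) = r := by rw [orderOf_injective ρ hinj, hs]
  have hadd : ∀ i j : ZMod r, ρ s ^ (i + j).val = ρ s ^ i.val * ρ s ^ j.val := by
    intro i j
    rw [ZMod.val_add, ← pow_add]
    have := pow_mod_orderOf (ρ s) (i.val + j.val)
    rwa [ho] at this
  let e0 : ZMod r → L ⧸ H := fun i => (ρ s ^ i.val) ((1 : L) : L ⧸ H)
  have he0 : Function.Injective e0 := by
    intro i j hij
    by_contra hne
    refine no_fix (σ := ρ s ^ (j - i).val) (hc ▸ hH) ?_ (e0 i) ?_
    · rw [hc, Nat.Coprime.orderOf_pow, ho]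
      rw [ho]
      exact (Nat.coprime_of_lt_prime (ZMod.val_ne_zero _ |>.2 (sub_ne_zero.2 (Ne.symm hne)))
        (ZMod.val_lt _) hH)
    · rw [← Perm.mul_apply, ← hadd, sub_add_cancel]
      exact hij.symm
  let e : ZMod r ≃ L ⧸ H := Equiv.ofBijective e0
    ((Fintype.bijective_iff_injective_and_card _).2 ⟨he0, by rw [ZMod.card, hc]⟩)
  refine selfCent_of_model hL hn (e.symm.permCongrHom.toMonoidHom.comp ρ)
    (e.symm.permCongrHom.injective.comp hinj) (s := s) fun x => ?_
  show e.symm (ρ s (e x)) = x + 1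
  rw [Equiv.symm_apply_eq, add_comm]
  show ρ s ((ρ s ^ x.val) _) = (ρ s ^ (1 + x).val) _
  rw [hadd, ZMod.val_one, pow_one, Perm.mul_apply]

end Vale.Agent.N240
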