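import Mathlib.GroupTheory.GroupAction.CardCommute
import Vale.Agent.N240.Prime
import Vale.Agent.P240.Bdl.B1

/-!
Local conditions: fixed points of automorphisms, simple groups of characteristic `r` type, simple groups
with a subgroup of `r`-power index.
-/

set_option autoImplicit false
set_option linter.all false

namespace Vale.Agent.N240

open Equiv Subgroup Vale.Agent.P240 Vale.Agent.P240.K Vale.Agent.P240.H195

variable {L : Type*} [Group L]

lemma fix_count [Finite L] {p : ℕ} [Fact p.Prime] {f : MulAut L} (hf : f ^ p = 1) {S : Set L}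
    (hS : ∀ x ∈ S, f x ∈ S) : {x | f x = x ∧ x ∈ S}.ncard ≡ S.ncard [MOD p] := by
  classical
  have := Fintype.ofFinite S
  let φ : Function.End S := fun x => ⟨f x, hS x x.2⟩
  have h1 : ∀ (n : ℕ) (x : S), ((φ ^ n) x : L) = (f ^ n) x := by
    intro n
    induction n with
    | zero => exact fun _ => rfl
    | succ n ih => intro x; rw [pow_succ, pow_succ]; exact ih (φ x)
  have h2 := Equiv.Perm.card_fixedPoints_modEq (f := φ) (p := p) (n := 1)
    (funext fun x => Subtype.ext (by rw [pow_one, h1, hf]; rfl))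
  rw [← Nat.card_eq_fintype_card, ← Nat.card_eq_fintype_card, Nat.card_coe_set_eq,
    Nat.card_coe_set_eq] at h2
  convert h2.symm using 1
  rw [← Set.ncard_image_of_injective _ Subtype.val_injective]
  congr 1
  ext x
  exact ⟨fun h => ⟨⟨x, h.2⟩, Subtype.ext h.1, rfl⟩, fun ⟨y, h1, h2⟩ =>
    h2 ▸ ⟨congrArg Subtype.val h1, y.2⟩⟩

lemma brauer_fowler [Finite L] {f : MulAut L} (hf : f ^ 2 = 1) {F : Subgroup L}
    (hF : ∀ x, x ∈ F ↔ f x = x) :
    F.index ^ 2 + Nat.card L ≤ Nat.card (ConjClasses L) * Nat.card L + F.index := by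
  classical
  have hff : ∀ x, f (f x) = x := fun x => by rw [← MulAut.mul_apply, ← sq, hf]; rfl
  let t : L ⧸ F → L := Quotient.lift (fun x => x * (f x)⁻¹) fun x y h => by
    have h1 := (hF _).1 (QuotientGroup.leftRel_apply.1 h)
    rw [map_mul, map_inv] at h1
    calc x * (f x)⁻¹ = x * ((f x)⁻¹ * f y) * (f y)⁻¹ := by group
      _ = y * (f y)⁻¹ := by rw [h1]; group
  have ht : Function.Injective t := by
    intro a b h
    obtain ⟨x, rfl⟩ := QuotientGroup.mk_surjective a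
    obtain ⟨y, rfl⟩ := QuotientGroup.mk_surjective b
    have h1 : x * (f x)⁻¹ = y * (f y)⁻¹ := h
    refine QuotientGroup.eq.2 ((hF _).2 ?_)
    rw [map_mul, map_inv]
    calc (f x)⁻¹ * f y = x⁻¹ * (x * (f x)⁻¹) * f y := by group
      _ = x⁻¹ * y := by rw [h1]; group
  have hi : ∀ a, f (t a) = (t a)⁻¹ := fun a => by
    obtain ⟨x, rfl⟩ := QuotientGroup.mk_surjective a
    show f (x * (f x)⁻¹) = (x * (f x)⁻¹)⁻¹
    rw [map_mul, map_inv, hff]; group
  have hg : ∀ a b, t a * f (t a * (t b)⁻¹) * (t a)⁻¹ = (t a * (t b)⁻¹)⁻¹ := fun a b => by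
    rw [map_mul, map_inv, hi, hi]; group
  let c : L → L := fun g => Classical.epsilon fun a => a * f g * a⁻¹ = g⁻¹
  have hc : ∀ a b, c (t a * (t b)⁻¹) * f (t a * (t b)⁻¹) * (c (t a * (t b)⁻¹))⁻¹ =
      (t a * (t b)⁻¹)⁻¹ := fun a b =>
    Classical.epsilon_spec (p := fun x => x * f (t a * (t b)⁻¹) * x⁻¹ = (t a * (t b)⁻¹)⁻¹) ⟨_, hg a b⟩
  have hcomm : ∀ a b, Commute (t a * (t b)⁻¹) (t a * (c (t a * (t b)⁻¹))⁻¹) := fun a b => by
    have h1 := hg a b
    have h2 := hc a b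
    generalize t a * (t b)⁻¹ = g at *
    refine Commute.inv_left_iff.1 ?_
    show g⁻¹ * _ = _ * g⁻¹
    calc g⁻¹ * (t a * (c g)⁻¹) = t a * f g * (c g)⁻¹ := by rw [← h1]; group
      _ = t a * (c g)⁻¹ * g⁻¹ := by rw [← h2]; group
  let ψ : ((L ⧸ F) × (L ⧸ F)) ⊕ L → {q : L × L // Commute q.1 q.2} ⊕ (L ⧸ F) := fun z =>
    z.elim (fun q => if q.1 = q.2 then Sum.inr q.1 else Sum.inl ⟨(_, _), hcomm q.1 q.2⟩)
      fun x => Sum.inl ⟨(1, x), Commute.one_left x⟩
  have hψ : Function.Injective ψ := by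
    rintro (⟨a, b⟩ | x) (⟨a', b'⟩ | x') h <;> simp only [ψ, Sum.elim_inl, Sum.elim_inr] at h
    · split_ifs at h with h1 h2 h2
      · cases h1; cases h2; cases h; rfl
      · simp only [Sum.inl.injEq, Subtype.mk.injEq, Prod.mk.injEq] at h
        obtain ⟨h3, h4⟩ := h
        rw [h3, mul_left_inj] at h4
        obtain rfl := ht h4
        rw [mul_right_inj, inv_inj] at h3
        rw [ht h3]
    · split_ifs at h with h1
      simp only [Sum.inl.injEq, Subtype.mk.injEq, Prod.mk.injEq] at h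
      exact absurd (ht (mul_inv_eq_one.1 h.1)) h1
    · split_ifs at h with h1
      simp only [Sum.inl.injEq, Subtype.mk.injEq, Prod.mk.injEq] at h
      exact absurd (ht (mul_inv_eq_one.1 h.1.symm)) h1
    · simp only [Sum.inl.injEq, Subtype.mk.injEq, Prod.mk.injEq] at h
      rw [h.2]
  have h := Nat.card_le_card_of_injective ψ hψ
  rwa [Nat.card_sum, Nat.card_sum, Nat.card_prod, card_comm_eq_card_conjClasses_mul_card,
    ← index_eq_card, ← sq] at h

lemma Rigid.eq_one [Finite L] {p : ℕ} [Fact p.Prime] {S : Subgroup L} (h : Rigid p S)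
    {f : MulAut L} (hf : f ^ p = 1) (hS : ∀ x ∈ S, f x = x) : f = 1 := by
  have hm : ∀ x, x ∈ f.toMonoidHom.eqLocus (MonoidHom.id L) ↔ f x = x := fun x => Iff.rfl
  have h1 := h (f.toMonoidHom.eqLocus (MonoidHom.id L)) hS ⟨fun Y hY g hg => ?_, fun h2 => ?_⟩
  · exact MulEquiv.ext fun x => (hm x).1 (h1.ge (mem_top x))
  · refine (fix_count hf (S := {x | ∀ y ∈ Y, x * y * x⁻¹ = g * y * g⁻¹}) fun x hx y hy => ?_).trans ?_
    · rw [← (hm _).1 (hg y hy), ← hx y hy, map_mul, map_mul, map_inv, (hm _).1 (hY hy)]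
    · have h2 : {x | ∀ y ∈ Y, x * y * x⁻¹ = g * y * g⁻¹} =
          (fun c => g * c) '' (centralizer (Y : Set L) : Set L) := by
        refine Set.ext fun x => ⟨fun hx => ⟨g⁻¹ * x, fun y hy => ?_, mul_inv_cancel_left g x⟩, ?_⟩
        · calc y * (g⁻¹ * x) = g⁻¹ * (g * y * g⁻¹) * x := by group
            _ = g⁻¹ * x * y := by rw [← hx y hy]; group
        · rintro ⟨c, hc, rfl⟩ y hy
          calc g * c * y * (g * c)⁻¹ = g * (c * y) * c⁻¹ * g⁻¹ := by group
            _ = g * y * g⁻¹ := by rw [← hc y hy]; group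
      rw [h2, Set.ncard_image_of_injective _ (mul_right_injective g)]
      rfl
  · subst h2
    exact brauer_fowler hf hm

lemma Inner.euFree [Finite L] {p : ℕ} [Fact p.Prime] (h : Inner p L) : EuFree p L := by
  obtain ⟨s, h1, h2⟩ := h
  refine ⟨s, h1, fun f hf h3 h4 => h3 ?_⟩
  rw [h2.eq_one hf fun x ⟨k, hk⟩ => by rw [← hk, map_zpow, h4]]
  exact one_mem _

lemma aut_step {p r : ℕ} [hp : Fact p.Prime] [hr : Fact r.Prime] (hpr : r ≠ p) {φ : MulAut L}
    (hφ : φ ^ p = 1) {y c : L} (h1 : φ y = y * c) (h2 : φ c = c) {Y : Subgroup L}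
    (hY : IsPGroup r Y) (hc : c ∈ Y) : φ y = y := by
  have h3 : ∀ j : ℕ, (φ ^ j) y = y * c ^ j := by
    intro j
    induction j with
    | zero => simp
    | succ j ih => rw [pow_succ', MulAut.mul_apply, ih, map_mul, map_pow, h1, h2, mul_assoc, pow_succ']
  have h4 := h3 p
  rw [hφ, MulAut.one_apply, left_eq_mul] at h4
  obtain ⟨k, hk⟩ := hY ⟨c, hc⟩
  have h5 : c ^ r ^ k = 1 := congrArg Subtype.val hk
  have h6 : c = 1 := orderOf_eq_one_iff.1 (Nat.eq_one_of_dvd_coprimes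
    (((Nat.coprime_primes hr.out hp.out).2 hpr).pow_left k) (orderOf_dvd_of_pow_eq_one h5)
    (orderOf_dvd_of_pow_eq_one h4))
  rw [h1, h6, mul_one]

lemma autFree_of {p r : ℕ} (hZ : ∀ x : L, (∀ y, x * y = y * x) → x = 1) {R : Subgroup L}
    (hR : IsPGroup r R) (h1 : ∀ E : Ap p L, ¬ R ≤ normalizer (E.1 : Set L))
    (h2 : ∀ f : MulAut L, f ^ p = 1 → (∀ u ∈ R, f u = u) → f = 1) : AutFree p r L := by
  have hinj := conj_inj hZ
  refine ⟨R, hR, fun E hE1 hE2 => ?_⟩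
  have hσ : ∀ s ∈ R, MulAut.conj s ∈ normalizer (E : Set (MulAut L)) := fun s hs =>
    hE2 (mem_map_of_mem _ hs)
  have h0 : E.comap MulAut.conj = ⊥ := by
    by_contra h0
    refine h1 ⟨E.comap MulAut.conj, h0, fun x hx y hy => hinj ?_, fun x hx => hinj ?_⟩ ?_
    · rw [map_mul, map_mul]
      exact hE1.2.1 _ hx _ hy
    · rw [map_pow, map_one]
      exact hE1.2.2 _ hx
    · refine fun s hs => mem_normalizer_iff.2 fun x => ?_
      have := mem_normalizer_iff.1 (hσ s hs) (MulAut.conj x)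
      simpa only [SetLike.mem_coe, mem_comap, map_mul, map_inv] using this
  refine hE1.1 (eq_bot_iff.2 fun e he => mem_bot.2 (h2 e (hE1.2.2 e he) fun s hs => ?_))
  have h1 : s * (e s)⁻¹ ∈ E.comap MulAut.conj := by
    rw [mem_comap, map_mul, map_inv, ← conj_conj]
    have h2 := mul_mem ((mem_normalizer_iff.1 (hσ s hs) e).1 he) (inv_mem he)
    convert h2 using 1
    group
  rw [h0, mem_bot, mul_inv_eq_one] at h1
  exact h1.symm

lemma norm_cond [Finite L] {r : ℕ} [Fact r.Prime] {H Z : Subgroup L} (hZ : IsPGroup r Z)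
    (h1 : H ≤ Z) (h2 : normalizer (H : Set L) ⊓ Z ≤ H) : Z ≤ H := by
  have := hZ.isNilpotent
  have h3 := normalizerCondition_iff_only_full_group_self_normalizing.1
    (Group.normalizerCondition_of_isNilpotent (G := Z)) (H.subgroupOf Z) (by
      rw [← subgroupOf_normalizer_eq h1]
      exact le_antisymm (fun x hx => h2 ⟨hx, x.2⟩) fun x hx => le_normalizer hx)
  exact subgroupOf_eq_top.1 h3

lemma card_le_sylow [Finite L] {r : ℕ} [Fact r.Prime] (R : Sylow r L) {Z : Subgroup L}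
    (hZ : IsPGroup r Z) : Nat.card Z ≤ Nat.card R := by
  obtain ⟨Q, hQ⟩ := hZ.exists_le_sylow
  exact (card_le_of_le hQ).trans (Nat.card_congr (Q.equiv R).toEquiv).le

lemma cent_of {p r : ℕ} [Fact p.Prime] [Fact r.Prime] (hpr : r ≠ p) {E Y : Subgroup L}
    (hE : IsPGroup p E) (hY : IsPGroup r Y) {x y : L} (hx : x ∈ E) (hy : y ∈ Y)
    (h1 : x * y * x⁻¹ ∈ Y) (h2 : y ∈ normalizer (E : Set L)) : x * y * x⁻¹ = y := by
  have h3 : x * y * x⁻¹ * y⁻¹ ∈ E := by
    rw [mul_assoc, mul_assoc, ← mul_assoc y]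
    exact mul_mem hx ((mem_normalizer_iff.1 h2 _).1 (inv_mem hx))
  exact mul_inv_eq_one.1 (disjoint_def.1 (IsPGroup.disjoint_of_ne r p hpr Y E hY hE)
    (mul_mem h1 (inv_mem hy)) h3)

lemma aut_norm [Finite L] {p r : ℕ} [Fact p.Prime] [Fact r.Prime] (hpr : r ≠ p) {f : MulAut L}
    (hf : f ^ p = 1) {X Y : Subgroup L} (hY : IsPGroup r Y)
    (h2 : normalizer (X : Set L) ≤ normalizer (Y : Set L))
    (h3 : centralizer (Y : Set L) ⊓ normalizer (X : Set L) ≤ Y) (hXF : ∀ ⦃x⦄, x ∈ X → f x = x)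
    (hYF : ∀ ⦃y⦄, y ∈ Y → f y = y) {n : L} (hn : n ∈ normalizer (X : Set L)) : f n = n := by
  have hfn : f n ∈ normalizer (X : Set L) := by
    refine mem_normalizer_fintype fun x hx => ?_
    have h4 := (mem_normalizer_iff.1 hn x).1 hx
    rwa [← hXF h4, map_mul, map_mul, map_inv, hXF hx] at h4
  have hc : n⁻¹ * f n ∈ Y := by
    refine h3 (mem_inf.2 ⟨mem_centralizer_iff.2 fun y hy => ?_, mul_mem (inv_mem hn) hfn⟩)
    have h4 := hYF ((mem_normalizer_iff.1 (h2 hn) y).1 hy)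
    rw [map_mul, map_mul, map_inv, hYF hy] at h4
    calc y * (n⁻¹ * f n) = n⁻¹ * (n * y * n⁻¹) * f n := by group
      _ = n⁻¹ * f n * y := by rw [← h4]; group
  exact aut_step hpr hf (mul_inv_cancel_left n (f n)).symm (hYF hc) hY hc

/-- automorphisms centralizing a Sylow subgroup -/
lemma CharType.aut [Finite L] (hL : IsSimpleGroup L) {p r : ℕ} [Fact p.Prime] [hr : Fact r.Prime]
    (hpr : r ≠ p) (h : CharType r L) {R : Sylow r L} (A : Ap r L) (hA : A.1 ≤ R) (f : MulAut L)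
    (hf : f ^ p = 1) (hR : ∀ u ∈ (R : Subgroup L), f u = u) : f = 1 := by
  set F : Subgroup L := f.toMonoidHom.eqLocus (MonoidHom.id L) with hF
  have hm : ∀ x, x ∈ F ↔ f x = x := fun x => Iff.rfl
  have key : ∀ X : Subgroup L, X ≠ ⊥ → IsPGroup r X → X ≤ F → normalizer (X : Set L) ≤ F := by
    intro X
    induction X using WellFoundedGT.induction with
    | ind X ih =>
    intro hX0 hX hXF
    obtain ⟨Y, hY, h1, h2, h3⟩ := h.1 X hX0 hX
    obtain ⟨Q, hQ⟩ := (hX.comap_subtype (K := F)).exists_le_sylow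
    have hRF : (R : Subgroup L) ≤ F := hR
    set T : Subgroup L := (Q : Subgroup F).map F.subtype with hT
    have hTF : T ≤ F := map_subtype_le _
    have hXT : X ≤ T := fun x hx => ⟨⟨x, hXF hx⟩, hQ hx, rfl⟩
    have hTp : IsPGroup r T := Q.isPGroup'.map _
    have hTc : Nat.card R ≤ Nat.card T := by
      rw [hT, card_map_of_injective F.subtype_injective,
        ← Nat.card_congr (subgroupOfEquivOfLe hRF).toEquiv]
      exact card_le_sylow Q R.isPGroup'.comap_subtype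
    have hZ : IsPGroup r (normalizer (X : Set L) ⊓ T ⊔ Y : Subgroup L) :=
      hTp.to_inf_right.to_sup_of_normal_right' hY (inf_le_left.trans h2)
    have hYF : Y ≤ F := by
      by_cases h4 : normalizer (X : Set L) ⊓ T ≤ X
      · have h5 : T ≤ normalizer (X : Set L) ⊓ T ⊔ Y :=
          (norm_cond hTp hXT h4).trans ((le_inf le_normalizer hXT).trans le_sup_left)
        have h6 := eq_of_le_of_card_ge h5 ((card_le_sylow R hZ).trans hTc)
        exact (le_sup_right.trans h6.ge).trans hTF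
      · have h5 : X < (normalizer (X : Set L) ⊓ T ⊔ Y) ⊓ F :=
          (lt_of_le_not_ge (le_inf le_normalizer hXT) h4).trans_le
            (le_inf le_sup_left (inf_le_right.trans hTF))
        have h6 := ih _ h5 (ne_bot_of_gt h5) hZ.to_inf_left inf_le_right
        exact (le_sup_right.trans (norm_cond hZ inf_le_left
          (le_inf inf_le_right (inf_le_left.trans h6)))).trans inf_le_right
    exact fun n hn => aut_norm hpr hf hY h2 h3 hXF hYF hn
  have hall : ∀ B : Ap r L, B.1 ≤ F := by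
    intro B
    induction h.2.2 A B with
    | refl => exact hA.trans hR
    | @tail X Y _ h2 ih =>
      rcases h2 with h2 | h2
      · refine le_trans (fun y hy => mem_normalizer_iff.2 fun x => ?_) (key X.1 X.2.1 (ap_pgroup X) ih)
        refine ⟨fun hx => ?_, fun hx => ?_⟩
        · rwa [Y.2.2.1 y hy x (h2 hx), mul_inv_cancel_right]
        · have h3 := Y.2.2.1 _ (inv_mem hy) _ (h2 hx)
          rw [show x = y * x * y⁻¹ by
            calc x = y⁻¹ * (y * x * y⁻¹) * y := by group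
              _ = y * x * y⁻¹ := by rw [h3]; group]
          exact hx
      · exact le_trans h2 ih
  have h1 : normalClosure {x : L | x ^ r = 1} ≤ F := by
    refine (closure_le _).2 fun x hx => ?_
    obtain ⟨y, hy, h2⟩ := Group.mem_conjugatesOfSet_iff.1 hx
    obtain ⟨c, rfl⟩ := isConj_iff.1 h2
    have h3 : (c * y * c⁻¹) ^ r = 1 := by rw [conj_pow, show y ^ r = 1 from hy]; group
    by_cases h4 : c * y * c⁻¹ = 1
    · rw [h4]; exact F.one_mem
    · exact hall ⟨_, zpowers_mem_ApS h3 h4⟩ (mem_zpowers _)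
  rcases hL.eq_bot_or_eq_top_of_normal (normalClosure {x : L | x ^ r = 1}) inferInstance with h2 | h2
  · exact absurd (eq_bot_iff.2 fun x hx => h2.le (subset_normalClosure (A.2.2.2 x hx))) A.2.1
  · exact MulEquiv.ext fun x => h1 (h2.ge (mem_top x))

lemma exists_fix [Finite L] {p r : ℕ} [hp : Fact p.Prime] [hr : Fact r.Prime] (hpr : r ≠ p)
    (A : Ap r L) {B : Subgroup L} (hA : r < B.relIndex A.1) (E : Ap p L)
    (h : A.1 ≤ normalizer (E.1 : Set L)) :
    ∃ a ∈ A.1, a ∉ B ∧ ∃ e ∈ E.1, e ≠ 1 ∧ a * e * a⁻¹ = e := by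
  by_contra hne
  push Not at hne
  have hr1 := hr.out.one_lt
  obtain ⟨b, hb, hb1⟩ : ∃ b ∈ A.1, b ∉ B := by
    by_contra h1
    push Not at h1
    rw [relIndex_eq_one.2 h1] at hA
    omega
  have hob : orderOf b = r := orderOf_eq_prime (A.2.2.2 b hb) fun h => hb1 (h ▸ B.one_mem)
  obtain ⟨a, ha, hab⟩ : ∃ a ∈ A.1, ∀ j < r, a * b ^ j ∉ B := by
    by_contra h1
    push Not at h1
    have h2 := Nat.card_le_card_of_surjective (fun j : Fin r =>
      (((⟨b, hb⟩ ^ j.val : A.1)⁻¹ : A.1) : A.1 ⧸ B.subgroupOf A.1)) fun x => by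
        obtain ⟨x, rfl⟩ := QuotientGroup.mk_surjective x
        obtain ⟨j, hj, h3⟩ := h1 x x.2
        refine ⟨⟨j, hj⟩, QuotientGroup.eq.2 ?_⟩
        rw [inv_inv, mem_subgroupOf]
        rwa [A.2.2.1 _ x.2 _ (pow_mem hb j)] at h3
    rw [Nat.card_fin] at h2
    exact hA.not_ge h2
  letI : CommGroup E.1 :=
    { (inferInstance : Group E.1) with mul_comm := fun x y => Subtype.ext (E.2.2.1 _ x.2 _ y.2) }
  let ψ : A.1 →* Monoid.End E.1 := ((MulDistribMulAction.toMonoidEnd (MulAut E.1) E.1).comp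
    E.1.normalizerMonoidHom).comp (inclusion h)
  have hψ : ∀ x : A.1, x.1 ∉ B → ∀ v, ψ x v = v → v = 1 := by
    intro x hx v hv
    by_contra hv1
    exact hne x x.2 hx v v.2 (fun h => hv1 (Subtype.ext h)) (congrArg Subtype.val hv)
  have hpow : ∀ x : A.1, ψ x ^ r = 1 := fun x => by
    rw [← map_pow, show x ^ r = 1 from Subtype.ext (A.2.2.2 x x.2), map_one]
  obtain ⟨v, hv⟩ := ne_bot_iff_exists_ne_one.1 E.2.1
  have h1 := pow_one_of_free hr.out.pos (ψ ⟨a, ha⟩) (ψ ⟨b, hb⟩)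
    (Commute.map (Subtype.ext (A.2.2.1 a ha b hb)) ψ) (hpow _) (hpow _) (fun j hj => by
      rw [← map_pow, ← map_mul]
      exact hψ _ (hab j hj)) (fun i h2 h3 => by
      rw [← map_pow]
      refine hψ _ fun h4 => hb1 ?_
      obtain ⟨m, hm⟩ := exists_pow_eq_self_of_coprime (x := b) (n := i)
        (hob ▸ (Nat.coprime_of_lt_prime h2.ne' h3 hr.out).symm)
      exact hm ▸ pow_mem (show b ^ i ∈ B from h4) m) v
  exact hv (orderOf_eq_one_iff.1 (Nat.eq_one_of_dvd_coprimes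
    ((Nat.coprime_primes hr.out hp.out).2 hpr) (orderOf_dvd_of_pow_eq_one h1)
    (orderOf_dvd_of_pow_eq_one (Subtype.ext (E.2.2.2 v v.2)))))

lemma comm_quot {Y Q : Subgroup L} [hn : (Q.subgroupOf Y).Normal]
    (hc : IsCyclic (Y ⧸ Q.subgroupOf Y)) {e z y : L} (he : e ∈ normalizer (Y : Set L))
    (hz : z ∈ normalizer (Y : Set L)) (he' : ∀ q ∈ Y, q ∈ Q → e * q * e⁻¹ ∈ Q)
    (hz' : ∀ q ∈ Y, q ∈ Q → z * q * z⁻¹ ∈ Q) (hy : y ∈ Y) :
    y⁻¹ * (e * z * e⁻¹ * z⁻¹ * y * (e * z * e⁻¹ * z⁻¹)⁻¹) ∈ Q := by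
  have key : ∀ g (hg : g ∈ normalizer (Y : Set L)), (∀ q ∈ Y, q ∈ Q → g * q * g⁻¹ ∈ Q) →
      ∃ m : ℤ, ∀ y : Y, ((Y.normalizerMonoidHom ⟨g, hg⟩ y : Y) : Y ⧸ Q.subgroupOf Y) =
        (y : Y ⧸ Q.subgroupOf Y) ^ m := by
    intro g hg hg'
    obtain ⟨m, hm⟩ := MonoidHom.map_cyclic (QuotientGroup.map (Q.subgroupOf Y) (Q.subgroupOf Y)
      (Y.normalizerMonoidHom ⟨g, hg⟩).toMonoidHom fun q hq => hg' q q.2 hq)
    exact ⟨m, fun y => hm y⟩
  obtain ⟨m, hm⟩ := key e he he'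
  obtain ⟨k, hk⟩ := key z hz hz'
  set φ := Y.normalizerMonoidHom with hφ
  set w : Y := φ (⟨z, hz⟩ * ⟨e, he⟩)⁻¹ ⟨y, hy⟩ with hw
  have h1 : ((φ ⟨z, hz⟩ (φ ⟨e, he⟩ w) : Y) : Y ⧸ Q.subgroupOf Y) =
      (φ ⟨e, he⟩ (φ ⟨z, hz⟩ w) : Y) := by
    rw [hm, hk, hk, hm, ← zpow_mul, ← zpow_mul, mul_comm]
  have h2 := QuotientGroup.eq.1 h1
  rw [mem_subgroupOf] at h2
  convert h2 using 1
  show _ = (z * (e * ((z * e)⁻¹ * y * (z * e)⁻¹⁻¹) * e⁻¹) * z⁻¹)⁻¹ *
    (e * (z * ((z * e)⁻¹ * y * (z * e)⁻¹⁻¹) * z⁻¹) * e⁻¹)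
  group

/-- a Sylow subgroup normalizes no `p`-subgroup -/
lemma noE_sq [Finite L] {p r : ℕ} [Fact p.Prime] [hr : Fact r.Prime] (hpr : r ≠ p)
    {R : Sylow r L} (A : Ap r L) (hA0 : Nat.card A.1 = r ^ 2) (hA : A.1 ≤ R)
    (hA' : (R : Subgroup L) ≤ normalizer (A.1 : Set L))
    (h : ∀ X ≤ A.1, X ≠ ⊥ → ∃ Y : Subgroup L, IsPGroup r Y ∧
      normalizer (X : Set L) ≤ normalizer (Y : Set L) ∧
      centralizer (Y : Set L) ⊓ normalizer (X : Set L) ≤ Y) (E : Ap p L) :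
    ¬ (R : Subgroup L) ≤ normalizer (E.1 : Set L) := by
  intro hR
  have hE := ap_pgroup E
  have kill : ∀ {X Y : Subgroup L} {x : L}, IsPGroup r Y →
      centralizer (Y : Set L) ⊓ normalizer (X : Set L) ≤ Y → x ∈ E.1 → x ∈ normalizer (X : Set L) →
      (∀ y ∈ Y, x * y * x⁻¹ = y) → x = 1 := fun hY h3 hx h1 h2 =>
    disjoint_def.1 (IsPGroup.disjoint_of_ne r p hpr _ _ hY hE) (h3 (mem_inf.2
      ⟨mem_centralizer_iff.2 fun y hy => (mul_inv_eq_iff_eq_mul.1 (h2 y hy)).symm, h1⟩)) hx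
  have h1 : ∀ x ∈ E.1, (∀ a ∈ A.1, x * a * x⁻¹ = a) → x = 1 := by
    intro x hx hxa
    obtain ⟨Y, hY, h2, h3⟩ := h A.1 le_rfl A.2.1
    have h4 : Y ≤ R := le_sup_right.trans
      (R.3 (R.isPGroup'.to_sup_of_normal_right' hY (hA'.trans h2)) le_sup_left).le
    have h5 : x ∈ normalizer (A.1 : Set L) :=
      mem_normalizer_fintype fun a ha => by rw [hxa a ha]; exact ha
    exact kill hY h3 hx h5 fun y hy =>
      cent_of hpr hE hY hx hy ((mem_normalizer_iff.1 (h2 h5) y).1 hy) (hR (h4 hy))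
  have hr1 := hr.out.one_lt
  obtain ⟨a, ha, ha1, e0, he0, he1, hae⟩ := exists_fix hpr A (B := ⊥)
    (by rw [relIndex_bot_left, hA0]; nlinarith) E (hA.trans hR)
  rw [mem_bot] at ha1
  have hoa : orderOf a = r := orderOf_eq_prime (A.2.2.2 a ha) ha1
  obtain ⟨z, hz, hza⟩ : ∃ z ∈ A.1, z ∉ zpowers a := by
    by_contra h1
    push Not at h1
    have h2 := card_le_of_le (show A.1 ≤ zpowers a from h1)
    rw [hA0, Nat.card_zpowers, hoa] at h2
    nlinarith
  set C : Subgroup L := centralizer {a} with hC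
  have hCm : ∀ x, x ∈ C ↔ x * a * x⁻¹ = a := fun x => by
    rw [hC, mem_centralizer_singleton_iff, mul_inv_eq_iff_eq_mul]
  have hzC : z ∈ C := (hCm z).2 (by rw [A.2.2.1 z hz a ha, mul_inv_cancel_right])
  have h2 : ∀ x ∈ E.1 ⊓ C, x * z * x⁻¹ = z → x = 1 := by
    intro x hx hxz
    refine h1 x hx.1 fun b hb => ?_
    have h3 : zpowers a < A.1 ⊓ centralizer {x} := by
      refine lt_of_le_not_ge ((zpowers_le).2 ⟨ha, mem_centralizer_singleton_iff.2 ?_⟩)
        fun h4 => hza (h4 ⟨hz, mem_centralizer_singleton_iff.2 ?_⟩)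
      · exact (mul_inv_eq_iff_eq_mul.1 ((hCm x).1 hx.2)).symm
      · exact (mul_inv_eq_iff_eq_mul.1 hxz).symm
    have h4 := card_dvd_of_le (inf_le_left : A.1 ⊓ centralizer {x} ≤ A.1)
    have h5 : r < Nat.card (A.1 ⊓ centralizer {x} : Subgroup L) := by
      have := lt_of_le_of_ne (card_le_of_le h3.le) fun h => h3.ne (eq_of_le_of_card_ge h3.le h.ge)
      rwa [Nat.card_zpowers, hoa] at this
    rw [hA0, Nat.dvd_prime_pow hr.out] at h4
    obtain ⟨i, hi, h4⟩ := h4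
    have h6 : i = 2 := by
      by_contra h6
      have : r ^ i ≤ r ^ 1 := Nat.pow_le_pow_right hr.out.pos (by omega)
      rw [h4] at h5
      rw [pow_one] at this
      omega
    have h7 := eq_of_le_of_card_ge (inf_le_left : A.1 ⊓ centralizer {x} ≤ A.1)
      (by rw [h4, h6, hA0])
    rw [mul_inv_eq_iff_eq_mul]
    exact (mem_centralizer_singleton_iff.1 (h7.ge hb).2).symm
  obtain ⟨e, he⟩ : ∃ e : (E.1 ⊓ C : Subgroup L), e * z * e⁻¹ * z⁻¹ = e0 := by
    have hmem : ∀ e : (E.1 ⊓ C : Subgroup L), (e : L) * z * (e : L)⁻¹ * z⁻¹ ∈ E.1 ⊓ C := fun e =>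
      mem_inf.2 ⟨by
        rw [mul_assoc, mul_assoc, ← mul_assoc z]
        exact mul_mem e.2.1 ((mem_normalizer_iff.1 (hR (hA hz)) _).1 (E.1.inv_mem e.2.1)),
      C.mul_mem (C.mul_mem (C.mul_mem e.2.2 hzC) (C.inv_mem e.2.2)) (C.inv_mem hzC)⟩
    have hinj : Function.Injective fun e : (E.1 ⊓ C : Subgroup L) =>
        (⟨_, hmem e⟩ : (E.1 ⊓ C : Subgroup L)) := by
      intro e e' h3
      have h4 : (e : L) * z * (e : L)⁻¹ = e' * z * (e' : L)⁻¹ :=
        mul_right_cancel (congrArg Subtype.val h3)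
      have h5 := h2 ((e' : L)⁻¹ * e) (mul_mem (inv_mem e'.2) e.2) (by
        calc _ = (e' : L)⁻¹ * (e * z * (e : L)⁻¹) * e' := by group
          _ = z := by rw [h4]; group)
      exact Subtype.ext (inv_mul_eq_one.1 h5).symm
    obtain ⟨e, he⟩ := Finite.surjective_of_injective hinj ⟨e0, he0, (hCm e0).2 (by
      rw [mul_inv_eq_iff_eq_mul, ← mul_inv_eq_iff_eq_mul.1 hae])⟩
    exact ⟨e, congrArg Subtype.val he⟩
  have he0C : e0 ∈ C := (hCm e0).2 (by rw [mul_inv_eq_iff_eq_mul, ← mul_inv_eq_iff_eq_mul.1 hae])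
  obtain ⟨Y, hY, h3, h4⟩ := h (zpowers a) (zpowers_le.2 ha) (by simpa using ha1)
  have hCN : C ≤ normalizer (zpowers a : Set L) := fun x hx => mem_normalizer_fintype (by
    rintro _ ⟨k, rfl⟩
    exact ⟨k, by simp only []; rw [← conj_zpow, (hCm x).1 hx]⟩)
  set Q : Subgroup L := R ⊓ C with hQ
  have hQE : ∀ x ∈ E.1 ⊓ C, ∀ q ∈ Y, q ∈ Q → x * q * x⁻¹ = q := fun x hx q hq hq' =>
    cent_of hpr hE hY hx.1 hq ((mem_normalizer_iff.1 (h3 (hCN hx.2)) q).1 hq) (hR hq'.1)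
  have h5 : Q.relIndex R ≤ r := by
    letI : MulAction (R : Subgroup L) L := MulAction.compHom _
      ((MulAut.conj (G := L)).comp (R : Subgroup L).subtype)
    have h6 : MulAction.stabilizer (R : Subgroup L) a = Q.subgroupOf R := by
      ext x
      exact ⟨fun h => ⟨x.2, (hCm x).2 h⟩, fun h => (hCm x).1 h.2⟩
    obtain ⟨n, hn⟩ := R.isPGroup'.index (Q.subgroupOf R)
    have h7 : r ^ n < r ^ 2 := by
      rw [← hn, ← h6, MulAction.index_stabilizer, ← hA0]
      refine Set.ncard_lt_ncard (t := (A.1 : Set L)) ⟨?_, fun h8 => ?_⟩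
      · rintro _ ⟨x, rfl⟩
        exact (mem_normalizer_iff.1 (hA' x.2) a).1 ha
      · obtain ⟨x, hx⟩ := h8 (one_mem A.1)
        exact ha1 (conj_eq_one_iff.1 hx)
    have h8 := (Nat.pow_lt_pow_iff_right hr1).1 h7
    calc Q.relIndex R = r ^ n := hn
      _ ≤ r ^ 1 := Nat.pow_le_pow_right hr.out.pos (by omega)
      _ = r := pow_one r
  have h6 : Q.relIndex Y ≤ r := by
    have h7 := card_le_sylow R ((R.isPGroup'.to_inf_left (K := C)).to_sup_of_normal_right' hY
      (inf_le_right.trans (hCN.trans h3)))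
    rw [← hQ, ← card_relIndex (le_sup_left : Q ≤ Q ⊔ Y), ← card_relIndex (inf_le_left : Q ≤ R)] at h7
    exact (relIndex_le_of_le_right le_sup_right index_ne_zero_of_finite).trans
      ((Nat.le_of_mul_le_mul_left h7 Nat.card_pos).trans h5)
  refine he1 (kill hY h4 he0 (hCN he0C) fun y hy => ?_)
  obtain ⟨n, hn⟩ := hY.index (Q.subgroupOf Y)
  rcases (show n = 0 ∨ n = 1 by
    have : r ^ n ≤ r ^ 1 := by rw [← hn, pow_one]; exact h6
    have := (Nat.pow_le_pow_iff_right hr1).1 this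
    omega) with rfl | rfl
  · exact hQE e0 ⟨he0, he0C⟩ y hy (relIndex_eq_one.1 hn hy)
  · rw [pow_one] at hn
    obtain ⟨m, hm⟩ := IsPGroup.iff_card.1 hY
    have hm0 : m ≠ 0 := by
      rintro rfl
      have := (Q.subgroupOf Y).index_dvd_card
      rw [hn, hm, pow_zero, Nat.dvd_one] at this
      omega
    have : (Q.subgroupOf Y).Normal :=
      normal_of_index_eq_minFac_card (by rw [hn, hm, hr.out.pow_minFac hm0])
    have h7 := comm_quot (Q := Q) (isCyclic_of_prime_card hn) (h3 (hCN e.2.2)) (h3 (hCN hzC))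
      (fun q hq hq' => by rw [hQE e e.2 q hq hq']; exact hq')
      (fun q _ hq' => mul_mem (mul_mem ⟨hA hz, hzC⟩ hq') (inv_mem ⟨hA hz, hzC⟩)) hy
    have he' : (e : L) * z * (e : L)⁻¹ * z⁻¹ = e0 := he
    rw [he'] at h7
    have h8 := mul_mem (inv_mem hy) ((mem_normalizer_iff.1 (h3 (hCN he0C)) y).1 hy)
    exact aut_step hpr (φ := MulAut.conj e0) (by rw [← map_pow, E.2.2.2 e0 he0, map_one])
      (mul_inv_cancel_left y _).symm (hQE e0 ⟨he0, he0C⟩ _ h8 h7) hY h8

theorem CharType.autFree [Finite L] (hL : IsSimpleGroup L)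
    (hZ : ∀ x : L, (∀ y, x * y = y * x) → x = 1) {p r : ℕ} [Fact p.Prime] [Fact r.Prime]
    (hpr : r ≠ p) (h : CharType r L) : AutFree p r L := by
  obtain ⟨R, A, h1, h2, h3⟩ := h.2.1
  refine autFree_of hZ R.isPGroup' (noE_sq hpr A h1 h2 h3 fun X hX h0 => ?_) (h.aut hL hpr A h2)
  obtain ⟨Y, h4, -, h5⟩ := h.1 X h0 ((ap_pgroup A).to_le hX)
  exact ⟨Y, h4, h5⟩

lemma noE_hyp [Finite L] {p r : ℕ} [Fact p.Prime] [hr : Fact r.Prime] (hpr : r ≠ p)
    {R : Subgroup L} (hRp : IsPGroup r R) (A : Ap r L) (hA : A.1 ≤ R)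
    (h : ∀ B ≤ A.1, B.relIndex A.1 = r → CharIn R (centralizer (B : Set L))) (E : Ap p L) :
    ¬ R ≤ normalizer (E.1 : Set L) := by
  intro hR
  have hE := ap_pgroup E
  obtain ⟨B, ⟨hB, hB1⟩, hmax⟩ := Set.Finite.exists_maximal
    (s := {B : Subgroup L | B ≤ A.1 ∧ E.1 ⊓ centralizer (B : Set L) ≠ ⊥}) (Set.toFinite _)
    ⟨⊥, bot_le, fun h => E.2.1 (eq_bot_iff.2 fun x hx => h.le ⟨hx, fun y hy => by
      rw [mem_bot.1 hy, one_mul, mul_one]⟩)⟩
  have h1 : B.relIndex A.1 ≤ r := by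
    by_contra h1
    obtain ⟨a, ha, haB, e, he, he1, hae⟩ := exists_fix hpr A (not_le.1 h1)
      ⟨E.1 ⊓ centralizer (B : Set L), hB1, fun x hx y hy => E.2.2.1 x hx.1 y hy.1,
        fun x hx => E.2.2.2 x hx.1⟩ fun a ha => mem_normalizer_fintype fun x hx =>
        ⟨(mem_normalizer_iff.1 (hR (hA ha)) x).1 hx.1, by
          have h2 : a ∈ centralizer (B : Set L) := fun b hb => A.2.2.1 b (hB hb) a ha
          exact Subgroup.mul_mem _ (Subgroup.mul_mem _ h2 hx.2) (Subgroup.inv_mem _ h2)⟩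
    refine haB (hmax ⟨sup_le hB (zpowers_le.2 ha), fun h2 => he1 (mem_bot.1 (h2.le ⟨he.1, ?_⟩))⟩
      le_sup_left (mem_sup_right (mem_zpowers a)))
    have h3 : B ⊔ zpowers a ≤ centralizer {e} :=
      sup_le (fun b hb => mem_centralizer_singleton_iff.2 (he.2 b hb))
        (zpowers_le.2 (mem_centralizer_singleton_iff.2 (mul_inv_eq_iff_eq_mul.1 hae)))
    exact fun b hb => mem_centralizer_singleton_iff.1 (h3 hb)
  obtain ⟨B', hB', h2, h3⟩ : ∃ B' ≤ A.1, B'.relIndex A.1 = r ∧ B' ≤ B := by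
    obtain ⟨n, hn⟩ := (ap_pgroup A).index (B.subgroupOf A.1)
    have hr1 := hr.out.one_lt
    rcases (show n = 0 ∨ n = 1 by
      have : r ^ n ≤ r ^ 1 := by rw [← hn, pow_one]; exact h1
      have := (Nat.pow_le_pow_iff_right hr1).1 this
      omega) with rfl | rfl
    · obtain ⟨m, hm⟩ := IsPGroup.iff_card.1 (ap_pgroup A)
      obtain ⟨k, rfl⟩ : ∃ k, m = k + 1 := Nat.exists_eq_succ_of_ne_zero fun h0 =>
        A.2.1 (by rwa [h0, pow_zero, card_eq_one] at hm)
      obtain ⟨K, hK⟩ := Sylow.exists_subgroup_card_pow_prime (G := A.1) r (n := k)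
        (hm ▸ pow_dvd_pow r k.le_succ)
      refine ⟨K.map A.1.subtype, map_subtype_le K, ?_,
        (map_subtype_le K).trans (relIndex_eq_one.1 hn)⟩
      have h4 := K.card_mul_index
      rw [hK, hm, pow_succ] at h4
      rw [relIndex, subgroupOf, comap_map_eq_self_of_injective A.1.subtype_injective]
      exact Nat.eq_of_mul_eq_mul_left (pow_pos hr.out.pos k) h4
    · exact ⟨B, hB, hn.trans (pow_one r), le_rfl⟩
  obtain ⟨Y, h4, h5, h6⟩ := h B' hB' h2
  have hY : IsPGroup r Y := hRp.to_le (h4.trans inf_le_left)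
  refine hB1 (eq_bot_iff.2 fun x hx => mem_bot.2 ?_)
  have h7 : x ∈ centralizer (B' : Set L) := centralizer_le h3 hx.2
  exact disjoint_def.1 (IsPGroup.disjoint_of_ne r p hpr _ _ hY hE) (h6 (mem_inf.2
    ⟨mem_centralizer_iff.2 fun y hy => (mul_inv_eq_iff_eq_mul.1 (cent_of hpr hE hY hx.1 hy
      ((mem_normalizer_iff.1 (h5 h7) y).1 hy) (hR (h4 hy).1))).symm, h7⟩)) hx.1

theorem LocChar.autFree [Finite L] (hZ : ∀ x : L, (∀ y, x * y = y * x) → x = 1) {p r : ℕ}
    [Fact p.Prime] [Fact r.Prime] (hpr : r ≠ p) (h : LocChar p r L) : AutFree p r L := by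
  obtain ⟨R, h3, h⟩ := h
  refine autFree_of hZ R.isPGroup' ?_ fun f hf hR =>
    h3.elim (fun h3 => MulEquiv.ext fun x => ?_) fun h3 => h3.eq_one hf hR
  · rcases h with h | ⟨A, h1, ⟨h2, h4, h5⟩ | h2⟩
    · exact h
    · refine noE_sq hpr A h2 h1 h4 fun X hX h0 => ?_
      obtain ⟨S, Y, h6, h7⟩ := h5 X hX h0
      exact ⟨Y, S.isPGroup'.to_le (h6.trans inf_le_left), h7⟩
    · exact noE_hyp hpr R.isPGroup' A h1 h2
  · have h4 : ⊤ ≤ f.toMonoidHom.eqLocus (MonoidHom.id L) := by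
      rw [← h3]
      refine iSup₂_le fun Y ⟨hY, h5⟩ n hn => ?_
      exact aut_norm hpr hf (R.isPGroup'.to_le hY) le_rfl (inf_le_left.trans h5)
        (fun x hx => hR x (hY hx)) (fun x hx => hR x (hY hx)) hn
    exact h4 (mem_top x)

/-- operators commuting with a transitive `r`-group -/
lemma nil_of {Ω : Type*} [Fintype Ω] {r : ℕ} [hr : Fact r.Prime] (π : L →* Perm Ω)
    {R : Subgroup L} (hR : IsPGroup r R) (ht : ∀ x y, ∃ u ∈ R, π u x = y)
    (N : Module.End (ZMod r) (Ω → ZMod r)) (h1 : ∀ u ∈ R, ∀ φ, N (φ ∘ π u) = N φ ∘ π u)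
    (h2 : ∀ c : ZMod r, N (fun _ => c) = 0) : ∃ n, N ^ n = 0 := by
  obtain ⟨n, hn, hn1⟩ := (N.eventually_isCompl_ker_pow_range_pow.and
    (Filter.eventually_ge_atTop 1)).exists
  refine ⟨n, LinearMap.range_eq_bot.1 ?_⟩
  by_contra hne
  have h3 : ∀ (k : ℕ), ∀ u ∈ R, ∀ φ, (N ^ k) (φ ∘ π u) = (N ^ k) φ ∘ π u := by
    intro k u hu
    induction k with
    | zero => exact fun _ => rfl
    | succ k ih => intro φ; rw [pow_succ', Module.End.mul_apply, ih, h1 u hu, Module.End.mul_apply]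
  set W := LinearMap.range (N ^ n) with hW
  letI : MulAction R W :=
    { smul := fun u w => ⟨w.1 ∘ π u⁻¹, by
        obtain ⟨φ, hφ⟩ := w.2
        exact ⟨φ ∘ π u⁻¹, by rw [h3 n _ (R.inv_mem u.2), hφ]⟩⟩
      one_smul := fun w => Subtype.ext (funext fun x => by
        show w.1 (π ((1 : R) : L)⁻¹ x) = w.1 x
        simp)
      mul_smul := fun u v w => Subtype.ext (funext fun x => by
        show w.1 (π ((u * v : R) : L)⁻¹ x) = w.1 (π (v : L)⁻¹ (π (u : L)⁻¹ x))
        simp) }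
  have h4 : r ∣ Nat.card W := by
    rw [Module.natCard_eq_pow_finrank (K := ZMod r), Nat.card_zmod]
    exact dvd_pow_self r fun h => hne (Submodule.finrank_eq_zero.1 h)
  obtain ⟨w, hw, hw0⟩ := hR.exists_fixed_point_of_prime_dvd_card_of_fixed_point W h4
    (a := 0) fun _ => rfl
  have h5 : N w.1 = 0 := by
    rcases isEmpty_or_nonempty Ω with h | ⟨⟨x0⟩⟩
    · exact Subsingleton.elim _ _
    · rw [show w.1 = fun _ => w.1 x0 from funext fun x => ?_, h2]
      obtain ⟨u, hu, rfl⟩ := ht x0 x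
      have h6 := congrFun (congrArg Subtype.val (hw ⟨u, hu⟩)) (π u x0)
      rw [← h6]
      show w.1 (π u⁻¹ (π u x0)) = _
      simp
  have h6 : w.1 ∈ LinearMap.ker (N ^ n) := by
    obtain ⟨k, rfl⟩ : ∃ k, n = k + 1 := ⟨n - 1, by omega⟩
    rw [LinearMap.mem_ker, pow_succ, Module.End.mul_apply, h5, map_zero]
  exact hw0 (Subtype.ext (Submodule.disjoint_def.1 hn.disjoint _ h6 w.2).symm)

theorem PowIndex.autFree [Finite L] (hL : IsSimpleGroup L)
    (hZ : ∀ x : L, (∀ y, x * y = y * x) → x = 1) {p r : ℕ} [hp : Fact p.Prime] [hr : Fact r.Prime]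
    (hpr : r ≠ p) (h : PowIndex r L) : AutFree p r L := by
  classical
  obtain ⟨H, a, ha, hH⟩ := h
  have := Fintype.ofFinite (L ⧸ H)
  set π := MulAction.toPermHom L (L ⧸ H) with hπ
  have hinj : Function.Injective π := by
    rw [← MonoidHom.ker_eq_bot_iff, hπ, ← normalCore_eq_ker]
    refine (hL.eq_bot_or_eq_top_of_normal _ inferInstance).resolve_right fun h => ?_
    have h1 : H = ⊤ := eq_top_iff.2 (h ▸ H.normalCore_le)
    rw [h1, index_top] at hH
    exact (Nat.one_lt_pow ha.ne' hr.out.one_lt).ne hH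
  obtain ⟨R⟩ : Nonempty (Sylow r L) := inferInstance
  set ω : L ⧸ H := ((1 : L) : L ⧸ H) with hω
  have hst : ∀ g, π g ω = ω ↔ g ∈ H := fun g =>
    SetLike.ext_iff.1 (MulAction.stabilizer_quotient H) g
  have hcop : (r ^ a).Coprime (R : Subgroup L).index :=
    ((Nat.Prime.coprime_iff_not_dvd hr.out).2 R.not_dvd_index).pow_left a
  have hrel : r ^ a ∣ H.relIndex R := by
    refine hcop.dvd_of_dvd_mul_right ?_
    rw [← inf_relIndex_right, relIndex_mul_index inf_le_right, ← hH]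
    exact index_dvd_of_le inf_le_left
  have ht0 : ∀ y, ∃ u ∈ (R : Subgroup L), π u ω = y := by
    have h1 : MulAction.stabilizer (R : Subgroup L) ω = H.subgroupOf R := by
      ext u
      exact hst u
    have h2 : MulAction.orbit (R : Subgroup L) ω = Set.univ := by
      refine Set.eq_of_subset_of_ncard_le (Set.subset_univ _) ?_
      rw [← MulAction.index_stabilizer, h1, Set.ncard_univ, ← index_eq_card, hH]
      exact Nat.le_of_dvd (Nat.pos_of_ne_zero index_ne_zero_of_finite) hrel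
    intro y
    obtain ⟨u, hu⟩ : y ∈ MulAction.orbit (R : Subgroup L) ω := h2 ▸ Set.mem_univ y
    exact ⟨u, u.2, hu⟩
  have ht : ∀ x y, ∃ u ∈ (R : Subgroup L), π u x = y := fun x y => by
    obtain ⟨u, hu, rfl⟩ := ht0 x
    obtain ⟨v, hv, rfl⟩ := ht0 y
    exact ⟨v * u⁻¹, mul_mem hv (inv_mem hu), by simp⟩
  refine autFree_of hZ R.isPGroup' (fun E hE => ?_) fun f hf hfR => ?_
  · obtain ⟨x, hx⟩ := (ap_pgroup E).nonempty_fixed_point_of_prime_not_dvd_card (L ⧸ H) (by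
      rw [← index_eq_card, hH]
      exact fun h => hpr.symm ((Nat.prime_dvd_prime_iff_eq hp.out hr.out).1
        (hp.out.dvd_of_dvd_pow h)))
    refine E.2.1 (eq_bot_iff.2 fun e he => mem_bot.2 (hinj (Equiv.ext fun y => ?_)))
    obtain ⟨u, hu, rfl⟩ := ht x y
    have h2 : π (u⁻¹ * e * u⁻¹⁻¹) x = x := hx ⟨_, (mem_normalizer_iff.1 (inv_mem (hE hu)) e).1 he⟩
    rw [inv_inv, map_mul, map_mul, Perm.mul_apply, Perm.mul_apply, map_inv, Perm.inv_eq_iff_eq] at h2
    simpa using h2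
  let S : L ⧸ H → Finset (L ⧸ H) := fun x =>
    Finset.univ.filter fun y => ∃ g, π g ω = x ∧ π (f g) ω = y
  have hS : ∀ g x, S (π g x) = (S x).map (π (f g)).toEmbedding := by
    intro g x
    ext y
    simp only [S, Finset.mem_filter, Finset.mem_univ, true_and, Finset.mem_map,
      Equiv.coe_toEmbedding]
    constructor
    · rintro ⟨k, h1, rfl⟩
      exact ⟨_, ⟨g⁻¹ * k, by rw [map_mul, Perm.mul_apply, h1, map_inv]; simp, rfl⟩, by
        rw [← Perm.mul_apply, ← map_mul, ← map_mul, mul_inv_cancel_left]⟩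
    · rintro ⟨_, ⟨k, rfl, rfl⟩, rfl⟩
      exact ⟨g * k, by rw [map_mul, Perm.mul_apply], by rw [map_mul, map_mul, Perm.mul_apply]⟩
  let M : Module.End (ZMod r) (L ⧸ H → ZMod r) :=
    { toFun := fun φ x => ∑ y ∈ S x, φ y
      map_add' := fun φ ψ => by ext x; simp [Finset.sum_add_distrib]
      map_smul' := fun c φ => by ext x; simp [Finset.mul_sum] }
  have hM : ∀ g φ, M (φ ∘ π (f g)) = M φ ∘ π g := fun g φ => funext fun x => by
    show ∑ y ∈ S x, φ (π (f g) y) = ∑ y ∈ S (π g x), φ y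
    rw [hS, Finset.sum_map]
    rfl
  set k : ZMod r := ((S ω).card : ZMod r) with hk
  have hk0 : k ≠ 0 := by
    letI : MulAction H (L ⧸ H) := MulAction.compHom _ ((π.comp f.toMonoidHom).comp H.subtype)
    have h1 : (MulAction.orbit H ω).ncard = (S ω).card := by
      rw [← Set.ncard_coe_finset]
      congr 1
      ext y
      simp only [S, Finset.coe_filter, Finset.mem_univ, true_and, Set.mem_setOf_eq]
      exact ⟨fun ⟨g, hg⟩ => ⟨g, (hst g).2 g.2, hg⟩, fun ⟨g, h1, h2⟩ => ⟨⟨g, (hst g).1 h1⟩, h2⟩⟩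
    have h2 : (R : Subgroup L).subgroupOf H ≤ MulAction.stabilizer H ω := fun u hu => by
      show π (f u) ω = ω
      rw [hfR u hu]
      exact (hst u).2 u.2
    have h3 := index_dvd_of_le h2
    rw [MulAction.index_stabilizer, h1] at h3
    rw [hk, Ne, ZMod.natCast_eq_zero_iff]
    intro h4
    have h5 : (R : Subgroup L).relIndex H * r ^ a = H.relIndex R * (R : Subgroup L).index := by
      rw [← hH, ← inf_relIndex_right, relIndex_mul_index inf_le_right, ← inf_relIndex_left,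
        relIndex_mul_index inf_le_left]
    have h6 : H.relIndex R = r ^ a := by
      refine le_antisymm ?_ (Nat.le_of_dvd (Nat.pos_of_ne_zero index_ne_zero_of_finite) hrel)
      rw [← hH, ← relIndex_top_right]
      exact relIndex_le_of_le_right le_top index_ne_zero_of_finite
    rw [h6, mul_comm] at h5
    have h7 := Nat.eq_of_mul_eq_mul_left (pow_pos hr.out.pos a) h5
    exact R.not_dvd_index (h7 ▸ h4.trans h3)
  obtain ⟨n, hn⟩ := nil_of π R.isPGroup' ht (M - k • 1) (fun u hu φ => by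
    have := hM u φ
    rw [hfR u hu] at this
    ext x
    simp [this]) fun c => by
    ext x
    obtain ⟨u, -, rfl⟩ := ht0 x
    show ∑ y ∈ S (π u ω), c - k * c = 0
    rw [hS]
    simp [hk]
  have h1 : M ^ r ^ n = k • 1 := by
    have h2 : M = Polynomial.aeval (M - k • 1) (Polynomial.X + Polynomial.C k) := by
      simp [Algebra.algebraMap_eq_smul_one]
    rw [h2, ← map_pow, add_pow_char_pow, ← Polynomial.C_pow, ZMod.pow_card_pow, map_add, map_pow,
      Polynomial.aeval_X, pow_eq_zero_of_le (Nat.lt_pow_self hr.out.one_lt).le hn, zero_add,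
      Polynomial.aeval_C, Algebra.algebraMap_eq_smul_one]
  have h2 : ∀ (m : ℕ) g φ, (M ^ m) (φ ∘ π ((f ^ m) g)) = (M ^ m) φ ∘ π g := by
    intro m g
    induction m with
    | zero => exact fun _ => rfl
    | succ m ih =>
      intro φ
      rw [pow_succ M, Module.End.mul_apply, pow_succ' f, MulAut.mul_apply, hM, ih,
        Module.End.mul_apply]
  have h3 : f ^ r ^ n = 1 := MulEquiv.ext fun g => hinj (Equiv.ext fun x => by
    have h4 := congrFun (h2 (r ^ n) g (Pi.single (π g x) 1)) x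
    rw [h1] at h4
    by_contra h5
    simp [Pi.single_eq_of_ne (show π ((f ^ r ^ n) g) x ≠ π g x from h5), hk0.symm] at h4)
  exact orderOf_eq_one_iff.1 (Nat.eq_one_of_dvd_coprimes
    (((Nat.coprime_primes hr.out hp.out).2 hpr).pow_left n) (orderOf_dvd_of_pow_eq_one h3)
    (orderOf_dvd_of_pow_eq_one hf))

theorem Loc.autFree [Finite L] (hL : IsSimpleGroup L)
    (hZ : ∀ x : L, (∀ y, x * y = y * x) → x = 1) {p r : ℕ} [Fact p.Prime] [Fact r.Prime]
    (hpr : r ≠ p) (h : Loc p r L) : AutFree p r L :=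
  h.elim (CharType.autFree hL hZ hpr) fun h =>
    h.elim (LocChar.autFree hZ hpr) (PowIndex.autFree hL hZ hpr)

end Vale.Agent.N240
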