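import Vale.Agent.N240.Math1

/-!
The Mathieu groups `M₂₄` and `M₁₂`.
-/

set_option autoImplicit false
set_option linter.all false
set_option maxRecDepth 100000

namespace Vale.Agent.N240

open Equiv Subgroup Vale.Agent.P240

noncomputable def chk (n t o e : ℕ) (P : (ℕ → ℕ) → Bool) : Bool :=
  allLt n fun z => !Nat.beq (lk t z) z || allLt n fun w => !Nat.beq (lk t w) w ||
    allLt n fun u => allLt n fun v => P (cand t o e z w u v u u)

lemma chk_spec {n t o e : ℕ} {P : (ℕ → ℕ) → Bool} (h : chk n t o e P = true) {z w : Fin n}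
    (u v : Fin n) (hz : Nat.beq (lk t z) z = true) (hw : Nat.beq (lk t w) w = true) :
    P (cand t o e z w u v u u) = true := by
  simp only [chk, allLt_iff, Bool.or_eq_true, Bool.not_eq_true'] at h
  exact ((h z).resolve_left (by simp [hz]) w).resolve_left (by simp [hw]) u v

lemma order_of {n S r : ℕ} [Fact r.Prime] {Γ : Subgroup (Perm (Fin n))} {A : Γ}
    (ha : ∀ x, (A.1 x).val = lk S x) (h : allLt n (fun x => Nat.beq (iter (lk S) r x) x) = true)
    (x : Fin n) (hx : lk S x ≠ x) : orderOf A = r := by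
  simp only [allLt_iff, Nat.beq_eq] at h
  refine orderOf_eq_prime (Subtype.ext (Equiv.ext fun y => Fin.ext ?_)) fun h1 => hx ?_
  · have := h y
    rw [iter_eq ha] at this
    exact this
  · rw [← ha, h1]
    rfl

namespace T24

def A : M24 := ⟨_, subset_closure (Or.inl rfl)⟩
def B : M24 := ⟨_, subset_closure (Or.inr (Or.inl rfl))⟩
def C : M24 := ⟨_, subset_closure (Or.inr (Or.inr rfl))⟩
def T : M24 := A ^ 2 * C * A ^ 12 * C * A ^ 2 * C
def sf := 956302485175575353788796878166559809
def s4 := 959359269975321467281073132481517732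
def bf := 965300289861748889990672440075108384
def cf := 1795248432537898728475572672376535
def tf := 980668730378935070469623699575545984
def t4 := 982051901153124072706648311500937312
def t10 := 977903326592794432676351619257413824
def o := 45558216358317871524697707378706496
def e := 10507916339217817358231146880702464

lemma hA : ∀ x, (A.1 x).val = lk sf x := by decide +kernel
lemma hB : ∀ x, (B.1 x).val = lk bf x := by decide +kernel
lemma hC : ∀ x, (C.1 x).val = lk cf x := by decide +kernel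
lemma hT : ∀ x, (T.1 x).val = lk tf x := by decide +kernel
lemma k0 : ∀ x : Fin 24, cand tf o e (0 : Fin 24) (23 : Fin 24) (1 : Fin 24) (5 : Fin 24)
    (1 : Fin 24) (1 : Fin 24) x = x := by decide +kernel
lemma k1 : chk 24 t4 o e (fun g => !relB 24 5 sf g || eqB 24 bf g) = true := by decide +kernel
lemma k2 : chk 24 t10 o e (fun g => !relB 24 3 sf g || eqB 24 cf g) = true := by decide +kernel

lemma cyc1 (x y : Fin 24) (hx : x ≠ Fin.last 23) (hy : y ≠ Fin.last 23) : ∃ k, A.1^[k] x = y :=
  cyc_of (r := 23) (P := fun x y => Nat.beq x 23 || Nat.beq y 23) hA (by decide +kernel) x y (by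
    rw [← Bool.not_eq_true, Bool.or_eq_true, Nat.beq_eq, Nat.beq_eq]
    exact fun h => h.elim (fun h => hx (Fin.ext h)) fun h => hy (Fin.ext h))

theorem selfCent {p : ℕ} [Fact p.Prime] : SelfCent p M24 := by
  have : Fact (Nat.Prime 23) := ⟨by norm_num⟩
  have ho : orderOf A = 23 := order_of hA (by decide +kernel) 0 (by decide +kernel)
  have h0 : A.1 (Fin.last 23) = Fin.last 23 := by decide +kernel
  have h2 : ∀ x, x ≠ Fin.last 23 → A.1 x ≠ x := by decide +kernel
  refine ⟨A, ho ▸ this.out, fix_of_rigid (T := T) (a := 4) (c := 14) (r := 23)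
    (ho ▸ pow_orderOf_eq_one A) (cent_succ (x0 := 0) (by decide) (fun y => cyc1 0 y (by decide)) h0 h2)
    (comm_tb hT hA (pow_tb (T := s4) hA (by decide +kernel)) hT (by decide +kernel)) (by decide)
    fun f hf hf' => aut_one f ?_, fun hp => noE_succ M24.subtype M24.subtype_injective ho (ho ▸ hp)
      (by norm_num) h0 cyc1 h2⟩
  have h4 := pow_tb (T := t4) (j := 4) hT (by decide +kernel)
  have h10 := pow_tb (T := t10) (j := 10) hT (by decide +kernel)
  rintro g (rfl | rfl | rfl)
  · exact hf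
  · have hs := semi_pt (comm_tb hB hT h4 hB (by decide +kernel)) hf'
    have hg := eq_cand 0 23 1 5 1 1 hT h4 k0 hs
    have h1 := chk_spec k1 ((f B).1 1) ((f B).1 5) (fix_pt hs h4 (z := 0) (by decide +kernel))
      (fix_pt hs h4 (z := 23) (by decide +kernel))
    rw [rel_pt (rel_of hA hB (by decide +kernel)) hf hA hg] at h1
    exact eq_of_eqB hg hB h1
  · have hs := semi_pt (comm_tb hC hT h10 hC (by decide +kernel)) hf'
    have hg := eq_cand 0 23 1 5 1 1 hT h10 k0 hs
    have h1 := chk_spec k2 ((f C).1 1) ((f C).1 5) (fix_pt hs h10 (z := 0) (by decide +kernel))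
      (fix_pt hs h10 (z := 23) (by decide +kernel))
    rw [rel_pt (rel_of hA hC (by decide +kernel)) hf hA hg] at h1
    exact eq_of_eqB hg hC h1

end T24

namespace T12

def A : M12 := ⟨_, subset_closure (Or.inl rfl)⟩
def B : M12 := ⟨_, subset_closure (Or.inr (Or.inl rfl))⟩
def C : M12 := ⟨_, subset_closure (Or.inr (Or.inr rfl))⟩
def T : M12 := A ^ 2 * C * A ^ 6 * C * A ^ 2 * C
def sf := 396678789134945345
def s4 := 399765946232969380
def s7 := 403252591817204999
def sb := 403185460442305546
def bf := 404347679700981792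
def cf := 1341517004510539
def tf := 404314823402233984
def t2 := 403115125022795936
def t4 := 405502438596188256
def o := 39480270388268096
def e := 2358559884050432
def bl := 0xe19cd2c33ca691bd07bd00f342f1e653aa0fc8d9c3d91ac59a58f4479f0c6b229d9e8a6970b65a32de46a53b238ab2758cee838970be3cc35987a785ec86175966e463c3725f06a97c2ce199cf4194dd6283de9418f347b86c6c05f54ed3416b26e9561b96632f8d294c7a9ac5592eb64867c4b5aca365c92cb4dc31e7543e1e70cb8393fa0ab1c1eb4a4b55a3d8a2a713773117c768971e2a5539b2e252d651db385653aaa5cd58ae26d149b7983b48d9b15f1268e1d5aac64d1dab897264ea0eddc447623b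

lemma hA : ∀ x, (A.1 x).val = lk sf x := by decide +kernel
lemma hB : ∀ x, (B.1 x).val = lk bf x := by decide +kernel
lemma hC : ∀ x, (C.1 x).val = lk cf x := by decide +kernel
lemma hT : ∀ x, (T.1 x).val = lk tf x := by decide +kernel
lemma hS : ∀ x, ((A ^ 10 * B).1 x).val = lk sb x := by decide +kernel
lemma k0 : ∀ x : Fin 12, cand tf o e (0 : Fin 12) (11 : Fin 12) (1 : Fin 12) (2 : Fin 12)
    (1 : Fin 12) (1 : Fin 12) x = x := by decide +kernel
lemma k1 : chk 12 t2 o e (fun g => !relB 12 3 s7 g || !blkB 12 132 bl 1 g || eqB 12 bf g) = true := by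
  decide +kernel
lemma k2 : chk 12 t4 o e (fun g => !relB 12 3 sf g || !relB 12 3 sb g || eqB 12 cf g) = true := by
  decide +kernel

lemma pres (g : M12) : Pres 132 bl g.1 := by
  refine pres_closure ?_ g.2
  rintro g (rfl | rfl | rfl)
  · exact (pres_iff hA).2 (allLt_iff.1 (show allLt 132 (fun j => blkB 12 132 bl j (lk sf)) = true by
      decide +kernel))
  · exact (pres_iff hB).2 (allLt_iff.1 (show allLt 132 (fun j => blkB 12 132 bl j (lk bf)) = true by
      decide +kernel))
  · exact (pres_iff hC).2 (allLt_iff.1 (show allLt 132 (fun j => blkB 12 132 bl j (lk cf)) = true by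
      decide +kernel))

lemma cyc1 (x y : Fin 12) (hx : x ≠ Fin.last 11) (hy : y ≠ Fin.last 11) : ∃ k, A.1^[k] x = y :=
  cyc_of (r := 11) (P := fun x y => Nat.beq x 11 || Nat.beq y 11) hA (by decide +kernel) x y (by
    rw [← Bool.not_eq_true, Bool.or_eq_true, Nat.beq_eq, Nat.beq_eq]
    exact fun h => h.elim (fun h => hx (Fin.ext h)) fun h => hy (Fin.ext h))

theorem selfCent {p : ℕ} [Fact p.Prime] : SelfCent p M12 := by
  have : Fact (Nat.Prime 11) := ⟨by norm_num⟩
  have ho : orderOf A = 11 := order_of hA (by decide +kernel) 0 (by decide +kernel)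
  have h0 : A.1 (Fin.last 11) = Fin.last 11 := by decide +kernel
  have h2 : ∀ x, x ≠ Fin.last 11 → A.1 x ≠ x := by decide +kernel
  refine ⟨A, ho ▸ this.out, fix_of_rigid (T := T) (a := 4) (c := 6) (r := 11)
    (ho ▸ pow_orderOf_eq_one A) (cent_succ (x0 := 0) (by decide) (fun y => cyc1 0 y (by decide)) h0 h2)
    (comm_tb hT hA (pow_tb (T := s4) hA (by decide +kernel)) hT (by decide +kernel)) (by decide)
    fun f hf hf' => aut_one f ?_, fun hp => noE_succ M12.subtype M12.subtype_injective ho (ho ▸ hp)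
      (by norm_num) h0 cyc1 h2⟩
  have h2 := pow_tb (T := t2) (j := 2) hT (by decide +kernel)
  have h4 := pow_tb (T := t4) (j := 4) hT (by decide +kernel)
  have h7 := pow_tb (T := s7) (j := 7) hA (by decide +kernel)
  have hb : f B = B := by
    have hs := semi_pt (comm_tb hB hT h2 hB (by decide +kernel)) hf'
    have hg := eq_cand 0 11 1 2 1 1 hT h2 k0 hs
    have h1 := chk_spec k1 ((f B).1 1) ((f B).1 2) (fix_pt hs h2 (z := 0) (by decide +kernel))
      (fix_pt hs h2 (z := 11) (by decide +kernel))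
    rw [rel_pt (rel_of h7 hB (by decide +kernel)) (by rw [map_pow, hf]) h7 hg,
      show blkB 12 132 bl 1 _ = true from (pres_iff hg).1 (pres _) 1] at h1
    exact eq_of_eqB hg hB h1
  rintro g (rfl | rfl | rfl)
  · exact hf
  · exact hb
  · have hs := semi_pt (comm_tb hC hT h4 hC (by decide +kernel)) hf'
    have hg := eq_cand 0 11 1 2 1 1 hT h4 k0 hs
    have h1 := chk_spec k2 ((f C).1 1) ((f C).1 2) (fix_pt hs h4 (z := 0) (by decide +kernel))
      (fix_pt hs h4 (z := 11) (by decide +kernel))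
    rw [rel_pt (rel_of hA hC (by decide +kernel)) hf hA hg,
      rel_pt (rel_of hS hC (by decide +kernel)) (by rw [map_mul, map_pow, hf, hb]) hS hg] at h1
    exact eq_of_eqB hg hC h1

end T12

end Vale.Agent.N240

/-!
The Mathieu group `M₂₂`; all Mathieu groups.
-/

namespace Vale.Agent.N240

open Equiv Subgroup Vale.Agent.P240

lemma comm_pt {Ω : Type*} {Γ : Subgroup (Perm Ω)} {g S : Γ} (h : g * S = S * g) (x : Ω) :
    g.1 (S.1 x) = S.1 (g.1 x) := congrArg (fun σ : Γ => σ.1 x) h

namespace T22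

def A : M22 := ⟨_, subset_closure (Or.inl rfl)⟩
def T : M22 := ⟨_, subset_closure (Or.inr (Or.inl rfl))⟩
def V : M22 := ⟨_, subset_closure (Or.inr (Or.inr rfl))⟩
def sf := 473650193886733377473815086500929
def s2 := 501579399046600495835891777048674
def s4 := 584876750337095187114767847495844
def tf := 873951639627443638036201086255331
def t2 := 872600899333795092775411418139940
def vf := 406094008382418036736076246692148
def o := 47067917862421256563611049986146
def e := 84221064042488107325534015552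
def os := 41873361762377641003349260107776
def es := 417382864018538445983143210092576
def bl := 0x2300c410148c802470083a4206918004772030225c1017140012e08064260e24011180624b820060988041d23400b001074801474020e900c84c406b031280871200a258100690150048e640605a00582e280082894450850d002c304c40321309704008c03120702406b0140c04e4104a0d002c680160028e8522828180980d6020a4504c84c0a02582e2001291412112215208248a10a0642604641890381203580482095421444144a0a10a208b10814ca082894108d101142142320ca41048508516098828428804641a2842882220f04441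

lemma hA : ∀ x, (A.1 x).val = lk sf x := by decide +kernel
lemma hT : ∀ x, (T.1 x).val = lk tf x := by decide +kernel
lemma hV : ∀ x, (V.1 x).val = lk vf x := by decide +kernel
lemma k0 : ∀ x : Fin 22, cand tf o e (10 : Fin 22) (21 : Fin 22) (0 : Fin 22) (6 : Fin 22)
    (14 : Fin 22) (20 : Fin 22) x = x := by decide +kernel
lemma k0s : ∀ x : Fin 22, cand sf os es (0 : Fin 22) (11 : Fin 22) (0 : Fin 22) (0 : Fin 22)
    (0 : Fin 22) (0 : Fin 22) x = x := by decide +kernel

lemma pres (g : M22) : Pres 77 bl g.1 := by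
  refine pres_closure ?_ g.2
  rintro g (rfl | rfl | rfl)
  · exact (pres_iff hA).2 (allLt_iff.1 (show allLt 77 (fun j => blkB 22 77 bl j (lk sf)) = true by
      decide +kernel))
  · exact (pres_iff hT).2 (allLt_iff.1 (show allLt 77 (fun j => blkB 22 77 bl j (lk tf)) = true by
      decide +kernel))
  · exact (pres_iff hV).2 (allLt_iff.1 (show allLt 77 (fun j => blkB 22 77 bl j (lk vf)) = true by
      decide +kernel))

lemma k1 : allLt 22 (fun a => allLt 22 fun b => !blkB 22 77 bl 0 (cand sf os es a b a a a a) ||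
    anyLt 11 fun k => allLt 22 fun x => Nat.beq (cand sf os es a b a a a a x) (iter (lk sf) k x)) =
      true := by decide +kernel

noncomputable def ok (j x : ℕ) (l : List ℕ) : Bool :=
  Nat.beq (inc 22 bl x j) 1 && l.all fun y => !Nat.beq x y

lemma k2 : allLt 77 (fun j => allLt 22 fun z => !(ok j z [] && Nat.beq (lk t2 z) z) ||
    allLt 22 fun w => !(ok j w [z] && Nat.beq (lk t2 w) w) || allLt 22 fun a => !ok j a [z, w] ||
      allLt 22 fun b => !ok j b [z, w, a] || allLt 22 fun c => !ok j c [z, w, a, b] ||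
        allLt 22 fun d => !ok j d [z, w, a, b, c] || !relB 22 5 s2 (cand t2 o e z w a b c d) ||
          eqB 22 vf (cand t2 o e z w a b c d)) = true := by decide +kernel

/-- the pairing determined by `y` -/
noncomputable def pr (y x : ℕ) : ℕ := cand sf os es y (iter (lk sf) (22 - y) 0) 0 0 0 0 x

lemma k3 : allLt 22 (fun y => Nat.blt y 11 || anyLt 5 fun j => allLt 77 fun j' =>
    !Nat.beq (inc 22 bl y j') (inc 22 bl 0 j) || anyLt 22 fun x =>
      !Nat.beq (inc 22 bl x j') (inc 22 bl x j) && !Nat.beq (inc 22 bl (pr y x) j') (inc 22 bl x j)) =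
        true := by decide +kernel

lemma k4 : allLt 22 (fun y => Nat.blt y 11 || allLt 22 fun x => anyLt 11 fun i =>
    (Nat.beq x (iter (lk sf) i 0) && Nat.beq (pr y x) (iter (lk sf) i y)) ||
      (Nat.beq x (iter (lk sf) i y) && Nat.beq (pr y x) (iter (lk sf) i 0))) = true := by
  decide +kernel

lemma k5 : allLt 22 (fun y => Nat.blt y 11 || allLt 22 fun x => !Nat.beq (pr y x) x) = true := by
  decide +kernel

lemma cyc1 (x y : Fin 22) (h : x.val < 11 ↔ y.val < 11) : ∃ k, A.1^[k] x = y :=
  cyc_of (r := 11) (P := fun x y => Nat.blt x 11 != Nat.blt y 11) hA (by decide +kernel) x y (by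
    rw [bne_eq_false_iff_eq, Bool.eq_iff_iff, Nat.blt_eq, Nat.blt_eq]
    exact h)

lemma cent (g : M22) (h : g * A = A * g) : ∃ k : ℕ, g = A ^ k := by
  have hg := eq_cand 0 11 0 0 0 0 hA hA k0s (comm_pt h)
  have h1 := k1
  simp only [allLt_iff, anyLt_iff, Bool.or_eq_true, Bool.not_eq_true', ← Bool.not_eq_true,
    ← imp_iff_not_or, Nat.beq_eq] at h1
  have h2 := (pres_iff hg).1 (pres _) 0
  rw [Fin.val_zero] at h2
  obtain ⟨k, hk⟩ := h1 (g.1 0) (g.1 11) h2
  refine ⟨k, Subtype.ext (Equiv.ext fun x => Fin.ext ?_)⟩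
  rw [hg, hk x, iter_eq hA, Subgroup.coe_pow, Perm.coe_pow]

lemma ok_of {g : Perm (Fin 22)} {j : ℕ} (h : ∀ x : Fin 22, inc 22 bl (g x) j = inc 22 bl x 0)
    (x : Fin 22) (l : List (Fin 22)) (h1 : inc 22 bl x 0 = 1 ∧ x ∉ l) :
    ok j (g x) (l.map fun y => (g y).val) = true := by
  simp only [ok, Bool.and_eq_true, Nat.beq_eq, h, h1.1, true_and, List.all_map, List.all_eq_true,
    Function.comp_apply, Bool.not_eq_true', ← Bool.not_eq_true]
  exact fun y hy h2 => h1.2 (g.injective (Fin.ext h2) ▸ hy)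

lemma rigid (f : MulAut M22) (hf : f A = A) (hf' : f T = T) : f = 1 := by
  refine aut_one f ?_
  rintro g (rfl | rfl | rfl)
  · exact hf
  · exact hf'
  have h2 := pow_tb (T := t2) (j := 2) hT (by decide +kernel)
  have h3 := pow_tb (T := s2) (j := 2) hA (by decide +kernel)
  have hs := semi_pt (comm_tb hV hT h2 hV (by decide +kernel)) hf'
  have hg := eq_cand 10 21 0 6 14 20 hT h2 k0 hs
  obtain ⟨j, hj⟩ := pres (f V) 0
  have h1 := k2
  simp only [allLt_iff, Bool.or_eq_true, Bool.not_eq_true', ← Bool.not_eq_true,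
    Bool.and_eq_true, or_assoc] at h1
  simp only [← imp_iff_not_or] at h1
  exact eq_of_eqB hg hV (h1 j _ ⟨ok_of hj 10 [] (by decide +kernel),
    fix_pt hs h2 (z := 10) (by decide +kernel)⟩ _ ⟨ok_of hj 21 [10] (by decide +kernel),
    fix_pt hs h2 (z := 21) (by decide +kernel)⟩ _ (ok_of hj 0 [10, 21] (by decide +kernel)) _
    (ok_of hj 6 [10, 21, 0] (by decide +kernel)) _ (ok_of hj 14 [10, 21, 0, 6] (by decide +kernel))
    _ (ok_of hj 20 [10, 21, 0, 6, 14] (by decide +kernel))
    (rel_pt (rel_of h3 hV (by decide +kernel)) (by rw [map_pow, hf]) h3 hg))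

lemma noE {p : ℕ} [Fact p.Prime] (ho : orderOf A = 11) (hp : 11 ≠ p) (E : Ap p M22) :
    A ∉ normalizer (E.1 : Set M22) := by
  intro hs
  have : Fact (Nat.Prime 11) := ⟨by norm_num⟩
  have key : ∀ e ∈ E.1, ∀ x : Fin 22, (x.val < 11 ↔ (e.1 x).val < 11) → e.1 x = x := by
    intro e he x hx
    obtain ⟨k, hk⟩ := cyc1 x _ hx
    refine rel_no M22.subtype ho (ap_pgroup E) hs x (fun O hxO hO m hm => ?_) k he hk.symm
    have h3 : ∀ u ∈ O, ∀ v : Fin 22, (u.val < 11 ↔ v.val < 11) → v ∈ O := by
      intro u hu v huv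
      obtain ⟨k, rfl⟩ := cyc1 u v huv
      clear huv
      induction k with
      | zero => exact hu
      | succ k ih => rw [Function.iterate_succ_apply']; exact hO _ ih
    refine not_pow (m := m) this.out hp ?_
    rw [← hm]
    by_cases h4 : ∀ u ∈ O, (x.val < 11 ↔ u.val < 11)
    · have h5 : O = Finset.univ.filter fun u : Fin 22 => (x.val < 11 ↔ u.val < 11) := by
        ext u
        simp only [Finset.mem_filter, Finset.mem_univ, true_and]
        exact ⟨h4 u, h3 x hxO u⟩
      rw [h5]
      exact (show ∀ x : Fin 22, 11 ∣ (Finset.univ.filter fun u : Fin 22 =>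
        (x.val < 11 ↔ u.val < 11)).card by decide +kernel) x
    · push Not at h4
      obtain ⟨u, hu, h4⟩ := h4
      have h5 : O = Finset.univ := Finset.eq_univ_of_forall fun v => by
        by_cases h6 : (x.val < 11 ↔ v.val < 11)
        · exact h3 x hxO v h6
        · exact h3 u hu v (by omega)
      rw [h5]
      decide +kernel
  have hcj : ∀ (k : ℕ), ∀ e ∈ E.1, ∀ x, ∃ e' ∈ E.1, e'.1 (A.1^[k] x) = A.1^[k] (e.1 x) := by
    intro k e he x
    refine ⟨A ^ k * e * (A ^ k)⁻¹, (mem_normalizer_iff.1 (pow_mem hs k) e).1 he, ?_⟩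
    simp only [Subgroup.coe_mul, Subgroup.coe_inv, Subgroup.coe_pow, Perm.mul_apply,
      ← Perm.coe_pow]
    simp
  have hlow : ∀ e ∈ E.1, ∀ x : Fin 22, x.val < 11 → e.1 x = x := by
    intro e0 he0 x0 hx0
    by_contra hne
    obtain ⟨k, hk⟩ := cyc1 x0 0 (by simp [hx0])
    obtain ⟨e, he, h1⟩ := hcj k e0 he0 x0
    have h2 : ¬ (e.1 0).val < 11 := fun h => by
      have h3 := key e he 0 (by simp [h])
      rw [← hk, h1] at h3
      exact hne (A.1.injective.iterate k h3)
    have h3 : ∀ x : Fin 22, ∃ e' ∈ E.1, (e'.1 x).val = pr (e.1 0) x := by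
      intro x
      have h4 := k4
      simp only [allLt_iff, anyLt_iff, Bool.or_eq_true, Bool.and_eq_true, Nat.beq_eq,
        Nat.blt_eq] at h4
      obtain ⟨i, ⟨h5, h6⟩ | ⟨h5, h6⟩⟩ := (h4 (e.1 0)).resolve_left h2 x
      · obtain ⟨e', he', h7⟩ := hcj i e he 0
        refine ⟨e', he', ?_⟩
        rw [h6, iter_eq hA, ← h7, show x = A.1^[i] 0 from Fin.ext (h5.trans (iter_eq hA i 0))]
      · obtain ⟨e', he', h7⟩ := hcj i e⁻¹ (inv_mem he) (e.1 0)
        refine ⟨e', he', ?_⟩
        rw [h6, show x = A.1^[i] (e.1 0) from Fin.ext (h5.trans (iter_eq hA i _)), h7]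
        simpa using (iter_eq hA i 0).symm
    have h4 : ∀ x : Fin 22, e.1 x = x ∨ (e.1 x).val = pr (e.1 0) x := by
      intro x
      refine or_iff_not_imp_left.2 fun hx => ?_
      obtain ⟨e', he', h5⟩ := h3 x
      have h6 := k5
      simp only [allLt_iff, Bool.or_eq_true, Bool.not_eq_true', ← Bool.not_eq_true, Nat.beq_eq,
        Nat.blt_eq] at h6
      have h7 : e'.1 x ≠ x := fun h => (h6 (e.1 0)).resolve_left h2 x (by rw [← h5, h])
      have h8 := mt (key e he x) hx
      have h9 := mt (key e' he' x) h7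
      have h10 : (e * e'⁻¹).1 (e'.1 x) = e.1 x := by simp
      rw [← h5, ← h10, key _ (mul_mem he (inv_mem he')) _ (by rw [h10]; omega)]
    have h5 := k3
    simp only [allLt_iff, anyLt_iff, Bool.or_eq_true, Bool.and_eq_true, Bool.not_eq_true',
      ← Bool.not_eq_true, Nat.beq_eq, Nat.blt_eq] at h5
    obtain ⟨j, hj⟩ := (h5 (e.1 0)).resolve_left h2
    obtain ⟨j', hj'⟩ := pres e ⟨j, by omega⟩
    rcases hj j' with h6 | ⟨x, h6, h7⟩
    · exact h6 (hj' 0)
    · rcases h4 x with h8 | h8
      · exact h6 (by have := hj' x; rwa [h8] at this)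
      · exact h7 (by have := hj' x; rwa [h8] at this)
  refine E.2.1 (eq_bot_iff.2 fun e he => mem_bot.2 (Subtype.ext (Equiv.ext fun x => ?_)))
  by_cases hx : x.val < 11
  · exact hlow e he x hx
  · refine key e he x (iff_of_false hx fun h => hx ?_)
    rwa [← e.1.injective (hlow e he _ h)]

theorem selfCent {p : ℕ} [Fact p.Prime] : SelfCent p M22 := by
  have : Fact (Nat.Prime 11) := ⟨by norm_num⟩
  have ho : orderOf A = 11 := order_of hA (by decide +kernel) 0 (by decide +kernel)
  exact ⟨A, ho ▸ this.out, fix_of_rigid (T := T) (a := 4) (c := 6) (r := 11)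
    (ho ▸ pow_orderOf_eq_one A) cent
    (comm_tb hT hA (pow_tb (T := s4) hA (by decide +kernel)) hT (by decide +kernel)) (by decide)
    rigid, fun hp => noE ho (ho ▸ hp)⟩

end T22

lemma primeIndex_of {n : ℕ} [NeZero n] (hn : n.Prime) {Γ : Subgroup (Perm (Fin n))} (A : Γ)
    (h : ∀ x, ∃ k : Fin n, A.1^[k] 0 = x) : PrimeIndex Γ := by
  refine ⟨MulAction.stabilizer Γ (0 : Fin n), ?_⟩
  have h1 : MulAction.orbit Γ (0 : Fin n) = Set.univ := Set.eq_univ_of_forall fun x => by
    obtain ⟨k, hk⟩ := h x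
    exact ⟨A ^ k.val, hk⟩
  rwa [MulAction.index_stabilizer, h1, Set.ncard_univ, Nat.card_eq_fintype_card, Fintype.card_fin]

lemma PrimeIndex.congr {L L' : Type*} [Group L] [Group L'] (e : L ≃* L') (h : PrimeIndex L') :
    PrimeIndex L := by
  obtain ⟨H, hH⟩ := h
  exact ⟨H.comap e.toMonoidHom, by rwa [index_comap_of_surjective _ e.surjective]⟩

theorem Mathieu.selfCent {L : Type*} [Group L] [Finite L] (hL : IsSimpleGroup L)
    (hn : ∃ x y : L, x * y ≠ y * x) (h : Mathieu L) {p : ℕ} [Fact p.Prime] : SelfCent p L := by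
  rcases h with ⟨⟨e⟩⟩ | ⟨⟨e⟩⟩ | ⟨⟨e⟩⟩ | ⟨⟨e⟩⟩ | ⟨⟨e⟩⟩
  · exact ((primeIndex_of (by norm_num) (⟨_, subset_closure (Or.inl rfl)⟩ : M11)
      (by decide +kernel)).congr e).selfCent hL hn
  · exact T12.selfCent.congr e
  · exact T22.selfCent.congr e
  · exact ((primeIndex_of (by norm_num) (⟨_, subset_closure (Or.inl rfl)⟩ : M23)
      (by decide +kernel)).congr e).selfCent hL hn
  · exact T24.selfCent.congr e

end Vale.Agent.N240
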