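import Vale.Agent.P240.R2.H314.Fin5
import Vale.Agent.N240.Math2
import Vale.Agent.N240.Loc

/-!
The main theorems.
-/

set_option autoImplicit false
set_option linter.all false

namespace Vale.Agent.N240

open Subgroup Vale.Agent.P240 Vale.Agent.P240.K Vale.Agent.P240.H195 Vale.Agent.P240.R2
open Vale.Agent.P240.R2.H63 Vale.Agent.P240.R2.H275 Vale.Agent.P240.R2.H487
open Vale.Agent.P240.R2.H487.N Vale.Agent.P240.R2.H490 Vale.Agent.P240.R2.H314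

universe u v

variable {𝕜 : Type v} [Field 𝕜] {p : ℕ}

lemma New.cases [hp : Fact p.Prime] {L : Type u} [Group L] [Finite L] (hs : IsSimpleGroup L)
    (hn : ∃ x y : L, x * y ≠ y * x) (h : New 𝕜 p L) :
    CycAut p L ∨ (FewAut p L ∧ ∃ r : ℕ, r.Prime ∧ AutFree p r L) ∨
      ∃ r : ℕ, r.Prime ∧ r ≠ p ∧ (r : 𝕜) = 0 ∧ AutFree p r L := by
  have hZ := centreless_of_simple hs hn
  have key : SelfCent p L → CycAut p L ∨ (FewAut p L ∧ ∃ r : ℕ, r.Prime ∧ AutFree p r L) ∨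
      ∃ r : ℕ, r.Prime ∧ r ≠ p ∧ (r : 𝕜) = 0 ∧ AutFree p r L := fun h =>
    (h.cases hZ).imp id Or.inl
  rcases h with h | h | h | ⟨r, hr, h1, h2, h⟩
  · exact key (h.selfCent hs hn)
  · exact key (h.selfCent hs hn)
  · exact key h
  · have : Fact r.Prime := ⟨hr⟩
    exact Or.inr (Or.inr ⟨r, hr, h1, h2, h.autFree hs hZ h1⟩)

lemma NewL.fac [hp : Fact p.Prime] {L : Type u} [Group L] [Finite L] (hs : IsSimpleGroup L)
    (hn : ∃ x y : L, x * y ≠ y * x) (hd : p ∣ Nat.card L) (h : FacA p L ∨ NewL 𝕜 p L) :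
    FacP p L ∨ Other 𝕜 p (if p = 2 then 3 else 2) L := by
  have hZ := centreless_of_simple hs hn
  have hl : (if p = 2 then 3 else 2).Prime ∧ (if p = 2 then 3 else 2) ≠ p := by
    split_ifs with h2
    · exact ⟨Nat.prime_three, by omega⟩
    · exact ⟨Nat.prime_two, Ne.symm h2⟩
  have : Fact (if p = 2 then 3 else 2).Prime := ⟨hl.1⟩
  have key : ∀ r : ℕ, r.Prime → AutFree p r L → (r = (if p = 2 then 3 else 2) ∨
      (r ≠ p ∧ (r : 𝕜) = 0) ∨ FewAut p L ∨ ¬ p ∣ Nat.card L) →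
      FacP p L ∨ Other 𝕜 p (if p = 2 then 3 else 2) L := fun r hr h1 h2 =>
    Or.inr (Or.inl (Or.inr (Or.inr (Or.inr (Or.inl ⟨r, hr, h1, h2⟩)))))
  rcases h with h | h | h | h
  · exact Or.inl h.facP
  · rcases h.cases hs hn with h | ⟨h, r, hr, h1⟩ | ⟨r, hr, h1, h2, h3⟩
    · exact Or.inl (Or.inr (Or.inr h))
    · exact key r hr h1 (Or.inr (Or.inr (Or.inl h)))
    · exact key r hr h3 (Or.inr (Or.inl ⟨h1, h2⟩))
  · exact Or.inr (Or.inl (Or.inr (Or.inr (Or.inl ⟨h.euFree, hd⟩))))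
  · exact key _ hl.1 (h.autFree hs hZ hl.2) (Or.inl rfl)

lemma stmtP5 (𝕜 : Type v) [Field 𝕜] : StmtP5.{u} fun L _ => H458.GFac 𝕜 2 L := by
  intro L _ _ F _ _ hs hab hL h5
  obtain ⟨e⟩ := H493.O5.stmtIso6 L F hL h5
  intro G _ _ M ⟨f⟩
  refine H458.locG_of_autG (e.trans f) (fun x hx => e.injective ?_) (H406.Cy6.autG6 𝕜)
  rw [map_one]
  refine centreless_of_simple hs hab (e x) fun y => ?_
  obtain ⟨y, rfl⟩ := e.surjective y
  rw [← map_mul, hx, map_mul]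

variable {G : Type u} [Group G] [Finite G]

theorem new_comp (hp : p.Prime) (hO : OpTrivial p G) (N : Subgroup G) [N.Normal]
    (h : RedComp p N fun L _ => FacA p L ∨ NewL 𝕜 p L) :
    ¬ ContractibleSpace (Realization (Ap p G)) ∧ HQ 𝕜 p G := by
  have : Fact p.Prime := ⟨hp⟩
  suffices H : HQ 𝕜 p G from ⟨hq_not_contractible H, H⟩
  have h1 : RedComp p N fun L _ => FacP p L ∨ Other 𝕜 p (if p = 2 then 3 else 2) L := by
    refine ⟨h.1, h.2.1, fun L hL => ?_⟩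
    have hf := comp_factor (reduced_op hO N h.1) (reduced_op' N h.1 h.2.1) hL
    exact NewL.fac hf.1 hf.2.1 (l2_dvd (reduced_op' N h.1 h.2.1) L hL) (h.2.2 L hL)
  by_cases hp2 : p = 2
  · subst hp2
    exact rat_comp (stmtL_of H490.stmtL 𝕜) (stmtP25_of H138.O25.stmtO25 𝕜)
      (stmtU_of H667.stmtO5m H928.stmtU5 𝕜) (stmtO_of H138.O25.stmtO25 stmtO5p H667.stmtO5m 𝕜)
      (stmtP5 𝕜) (fun _ _ _ hO N _ hN hmax h => H458.comp_mainM Nat.prime_three hO N hN hmax h)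
      hO N h1
  · rw [if_neg hp2] at h1
    exact odd_comp hp hp2 hO N ⟨h.1, h.2.1, fun L hL => or_assoc.1 ((h1.2.2 L hL).elim
      (fun h => h.elim (fun h => Or.inl (Or.inl h)) fun h => h.elim
        (fun h => Or.inl (Or.inr h)) fun h => Or.inr (Or.inl h)) fun h => Or.inr (Or.inr h))⟩

theorem new_factor (hp : p.Prime) (hO : OpTrivial p G)
    (h : Factors p G fun L _ => FacA p L ∨ NewL 𝕜 p L) :
    ¬ ContractibleSpace (Realization (Ap p G)) ∧ HQ 𝕜 p G := by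
  have : Fact p.Prime := ⟨hp⟩
  obtain ⟨N, hN, h1⟩ := redComp_of_factors hO h
  exact new_comp hp hO N h1

lemma New.elim [hp : Fact p.Prime] {L : Subgroup G} (hs : IsSimpleGroup L)
    (hn : ∃ x y : L, x * y ≠ y * x) (hd : p ∣ Nat.card L) (h : New 𝕜 p L) :
    TopFac 𝕜 p L ∨ LocN p L ∨ Removable 𝕜 p L ∨ RigidLie p L ∨
      ((p : 𝕜) = 0 ∧ JumpSub 𝕜 p L) ∨ (p = 2 ∧ IsSimpleGroup L ∧ PauliPSL L) := by
  rcases h.cases hs hn with h | h | ⟨r, hr, h1, h2, h3⟩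
  · exact Or.inl (H613.topFac_of_cyc hs hn hd h 𝕜)
  · exact TopR.elim (Or.inr (Or.inr h))
  · exact Or.inr (Or.inr (Or.inl (Or.inr ⟨r, hr, h1, h2, h3.freeSub⟩)))

theorem new_family (hp : p.Prime) {D : Set (Subgroup G)} (hD : Family D)
    (h : ∀ L ∈ D, SimpleDiv p L ∧ (ElimLie p L ∨ New 𝕜 p L)) (hC : HQ 𝕜 p (CenFam D)) :
    HQ 𝕜 p G := by
  have : Fact p.Prime := ⟨hp⟩
  refine family_elimT hD.1 hD.2 (fun L hL x hx hxy => ?_) (fun L hL => (h L hL).1.2.2)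
    (fun L hL => ?_) hC
  · exact congrArg Subtype.val (centreless_of_simple (h L hL).1.1 (h L hL).1.2.1 ⟨x, hx⟩ fun y =>
      Subtype.ext (hxy y y.2))
  · obtain ⟨⟨h1, h2, h3⟩, h4 | h4⟩ := h L hL
    exacts [h4.elim 𝕜 h1 h2 h3, h4.elim h1 h2 h3]

theorem new_minimal (hp : p.Prime) (h : MinCounter 𝕜 p G) : ∀ L ∈ Q.Comp G, ¬ New 𝕜 p L := by
  have : Fact p.Prime := ⟨hp⟩
  obtain ⟨hO, hG, hmin⟩ := h
  intro L hL h
  have hO' := (H612.minimal_main hO hG hmin).1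
  have hf := comp_factor hO hO' hL
  exact minimal_top hO hG hmin hL (h.elim hf.1 hf.2.1 (l2_dvd hO' L hL))

end Vale.Agent.N240
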