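import Vale.Agent.N240.Prime

/-!
Tools for explicit permutation groups; the Mathieu groups `M₁₂` and `M₂₄`.
-/

set_option autoImplicit false
set_option linter.all false
set_option maxRecDepth 100000

namespace Vale.Agent.N240

open Equiv Subgroup Vale.Agent.P240

section
variable {L : Type*} [Group L]

lemma fix_of_rigid {S T : L} {r a c : ℕ} (hS : S ^ r = 1)
    (hC : ∀ g : L, g * S = S * g → ∃ k : ℕ, g = S ^ k) (hT : T * S = S ^ a * T)
    (hc : a * (1 + c) ≡ c [MOD r]) (hrig : ∀ f : MulAut L, f S = S → f T = T → f = 1)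
    (f : MulAut L) (hf : f S = S) : ∃ k : ℕ, f = MulAut.conj (S ^ k) := by
  have h1 : f T * S = S ^ a * f T := by
    have := congrArg f hT
    rwa [map_mul, map_mul, map_pow, hf] at this
  obtain ⟨k, hk⟩ := hC (T⁻¹ * f T) (by
    rw [mul_assoc, h1, ← mul_assoc, ← mul_assoc]
    congr 1
    rw [inv_mul_eq_iff_eq_mul, ← mul_assoc, hT, mul_inv_cancel_right])
  have h2 : ∀ j : ℕ, T * S ^ j = S ^ (a * j) * T := by
    intro j
    induction j with
    | zero => simp
    | succ j ih => rw [pow_succ, ← mul_assoc, ih, mul_assoc, hT, ← mul_assoc, ← pow_add, mul_add,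
        mul_one]
  have h3 : S ^ (a * (k + c * k)) = S ^ (c * k) := by
    refine pow_eq_pow_of_modEq ?_ hS
    have := hc.mul_right k
    rwa [mul_assoc, add_mul, one_mul] at this
  refine ⟨c * k, ?_⟩
  have h4 := hrig ((MulAut.conj (S ^ (c * k)))⁻¹ * f) (by
    rw [MulAut.mul_apply, hf, MulAut.conj_inv_apply, mul_assoc, ← pow_succ', pow_succ,
      inv_mul_cancel_left]) (by
    rw [MulAut.mul_apply, MulAut.conj_inv_apply, inv_mul_eq_iff_eq_mul.1 hk, mul_assoc, mul_assoc,
      ← pow_add, h2, h3, inv_mul_cancel_left])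
  exact (inv_mul_eq_one.1 h4).symm

lemma rel_no {Ω : Type*} [Fintype Ω] [DecidableEq Ω] (π : L →* Perm Ω) {s : L} {r p : ℕ}
    [hr : Fact r.Prime] [Fact p.Prime] (ho : orderOf s = r) {E : Subgroup L} (hE : IsPGroup p E)
    (hs : s ∈ normalizer (E : Set L)) (x : Ω)
    (hx : ∀ O : Finset Ω, x ∈ O → (∀ z ∈ O, π s z ∈ O) → ∀ m, O.card ≠ p ^ m) (k : ℕ) {e : L}
    (he : e ∈ E) (h : π e x = (π s)^[k] x) : π e x = x := by
  classical
  by_contra hne
  rw [← Perm.coe_pow, ← map_pow] at h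
  have hk : k.Coprime (orderOf s) := by
    rw [ho, Nat.coprime_comm, hr.out.coprime_iff_not_dvd]
    rintro ⟨j, rfl⟩
    rw [pow_mul, ← ho, pow_orderOf_eq_one, one_pow, map_one] at h
    exact hne h
  obtain ⟨j, hj⟩ := exists_pow_eq_self_of_coprime hk
  obtain ⟨m, hm⟩ := orbit_card π hE x (Finset.univ.filter fun y => ∃ e ∈ E, π e x = y) (by simp)
  refine hx _ ?_ ?_ m hm
  · simp only [Finset.mem_filter, Finset.mem_univ, true_and]
    exact ⟨1, one_mem _, by simp⟩
  · simp only [Finset.mem_filter, Finset.mem_univ, true_and]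
    rw [← hj]
    clear hj
    induction j with
    | zero => simp
    | succ j ih =>
      intro z hz
      obtain ⟨e', he', h1⟩ := ih z hz
      refine ⟨s ^ k * e' * (s ^ k)⁻¹ * e,
        mul_mem ((mem_normalizer_iff.1 (pow_mem hs k) e').1 he') he, ?_⟩
      rw [pow_succ', map_mul, map_mul, map_mul, map_mul, Perm.mul_apply, Perm.mul_apply,
        Perm.mul_apply, Perm.mul_apply, h, h1.symm, map_inv]
      simp

lemma not_pow {p m r : ℕ} [hp : Fact p.Prime] (hr : r.Prime) (h : r ≠ p) (h1 : r ∣ p ^ m) : False :=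
  h ((Nat.prime_dvd_prime_iff_eq hr hp.out).1 (hr.dvd_of_dvd_pow h1))

/-- degree `r + 1` -/
lemma noE_succ {r p : ℕ} [hr : Fact r.Prime] [Fact p.Prime] (π : L →* Perm (Fin (r + 1)))
    (hπ : Function.Injective π) {s : L} (ho : orderOf s = r) (hrp : r ≠ p) (h6 : 6 ∣ r + 1)
    (h0 : π s (Fin.last r) = Fin.last r)
    (h1 : ∀ x y, x ≠ Fin.last r → y ≠ Fin.last r → ∃ k, (π s)^[k] x = y)
    (h2 : ∀ x, x ≠ Fin.last r → π s x ≠ x) (E : Ap p L) : s ∉ normalizer (E.1 : Set L) := by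
  intro hs
  have key : ∀ x, x ≠ Fin.last r → ∀ k, ∀ e ∈ E.1, π e x = (π s)^[k] x → π e x = x := by
    intro x hx k e he
    refine rel_no π ho (ap_pgroup E) hs x (fun O hxO hO m hm => ?_) k he
    have h3 : Finset.univ.erase (Fin.last r) ⊆ O := by
      intro y hy
      obtain ⟨k, rfl⟩ := h1 x y hx (Finset.ne_of_mem_erase hy)
      clear hy
      induction k with
      | zero => exact hxO
      | succ k ih => rw [Function.iterate_succ_apply']; exact hO _ ih
    have h4 := Finset.card_le_card h3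
    have h5 := Finset.card_le_univ O
    rw [Finset.card_erase_of_mem (Finset.mem_univ _), Finset.card_univ] at h4
    rw [Fintype.card_fin] at h4 h5
    rcases (show O.card = r ∨ O.card = r + 1 by omega) with h | h
    · exact not_pow (m := m) hr.out hrp (by rw [← hm, h])
    · have h7 : 6 ∣ p ^ m := by rw [← hm, h]; exact h6
      by_cases hp2 : 2 = p
      · exact not_pow Nat.prime_three (by omega) ((by norm_num : 3 ∣ 6).trans h7)
      · exact not_pow Nat.prime_two hp2 ((by norm_num : 2 ∣ 6).trans h7)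
  have hl : ∀ e ∈ E.1, π e (Fin.last r) = Fin.last r := by
    intro e he
    by_contra hne
    have h3 := key _ hne 1 (s * e * s⁻¹ * e⁻¹)
      (mul_mem ((mem_normalizer_iff.1 hs e).1 he) (inv_mem he))
    have h4 : π s⁻¹ (Fin.last r) = Fin.last r := by rw [map_inv, Perm.inv_eq_iff_eq, h0]
    have h5 : π (s * e * s⁻¹ * e⁻¹) (π e (Fin.last r)) = π s (π e (Fin.last r)) := by
      rw [← Perm.mul_apply, ← map_mul, inv_mul_cancel_right, map_mul, map_mul, Perm.mul_apply,
        Perm.mul_apply, h4]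
    exact h2 _ hne (h5 ▸ h3 h5)
  refine E.2.1 (eq_bot_iff.2 fun e he => mem_bot.2 (hπ (Equiv.ext fun x => ?_)))
  rw [map_one, Perm.one_apply]
  by_cases hx : x = Fin.last r
  · rw [hx, hl e he]
  · obtain ⟨k, hk⟩ := h1 x (π e x) hx fun h => hx ((π e).injective (h.trans (hl e he).symm))
    exact key x hx k e he hk.symm

end

/-- a function given by a table -/
def lk (T x : ℕ) : ℕ := Nat.land (Nat.shiftRight T (Nat.mul 5 x)) 31

def sel {α : Type*} (o : ℕ) (a b c d u v : α) : α :=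
  cond (Nat.beq o 0) a (cond (Nat.beq o 1) b (cond (Nat.beq o 2) c (cond (Nat.beq o 3) d
    (cond (Nat.beq o 4) u v))))

lemma map_sel {α β : Type*} (g : α → β) (o : ℕ) (a b c d u v : α) :
    g (sel o a b c d u v) = sel o (g a) (g b) (g c) (g d) (g u) (g v) := by
  simp only [sel, Bool.apply_cond g]

noncomputable def force (x : ℕ) (k : ℕ → ℕ) : ℕ := Nat.rec (k 0) (fun n _ => k (Nat.succ n)) x

lemma force_eq (x : ℕ) (k : ℕ → ℕ) : force x k = k x := by cases x <;> rfl

noncomputable def iter (g : ℕ → ℕ) (i y : ℕ) : ℕ := Nat.rec y (fun _ z => g z) i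

lemma iter_eq {n : ℕ} {t : Fin n → Fin n} {g : ℕ → ℕ} (h : ∀ x, (t x).val = g x.val) (i : ℕ)
    (y : Fin n) : iter g i y.val = (t^[i] y).val := by
  induction i with
  | zero => rfl
  | succ i ih => rw [Function.iterate_succ_apply', h, ← ih]; rfl

noncomputable def allLt (n : ℕ) (f : ℕ → Bool) : Bool := Nat.rec true (fun k ih => f k && ih) n

noncomputable def anyLt (n : ℕ) (f : ℕ → Bool) : Bool := Nat.rec false (fun k ih => f k || ih) n

lemma allLt_iff {n : ℕ} {f : ℕ → Bool} : allLt n f = true ↔ ∀ k : Fin n, f k = true := by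
  induction n with
  | zero => exact ⟨fun _ k => k.elim0, fun _ => rfl⟩
  | succ n ih =>
    show (f n && allLt n f) = true ↔ _
    rw [Bool.and_eq_true, ih, Fin.forall_fin_succ', and_comm]
    rfl

lemma anyLt_iff {n : ℕ} {f : ℕ → Bool} : anyLt n f = true ↔ ∃ k : Fin n, f k = true := by
  induction n with
  | zero => exact ⟨fun h => Bool.noConfusion h, fun ⟨k, _⟩ => k.elim0⟩
  | succ n ih =>
    show (f n || anyLt n f) = true ↔ _
    rw [Bool.or_eq_true, ih, Fin.exists_fin_succ', or_comm]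
    rfl

/-- the function intertwining `t` and `t'` with given values on orbit representatives -/
noncomputable def cand (T o e a b c d u v x : ℕ) : ℕ :=
  force x fun x => iter (lk T) (lk e x) (sel (lk o x) a b c d u v)

lemma eq_cand {n T T' o e : ℕ} {t t' g : Fin n → Fin n} (a b c d u v : Fin n)
    (ht : ∀ x, (t x).val = lk T x) (ht' : ∀ x, (t' x).val = lk T' x)
    (h : ∀ x : Fin n, cand T o e a b c d u v x = x) (hg : ∀ x, g (t x) = t' (g x)) (x : Fin n) :
    (g x).val = cand T' o e (g a) (g b) (g c) (g d) (g u) (g v) x := by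
  have h1 := h x
  rw [cand, force_eq, ← map_sel Fin.val, iter_eq ht] at h1
  rw [cand, force_eq, ← map_sel Fin.val, iter_eq ht', ← map_sel g,
    ← (show Function.Semiconj g t t' from hg).iterate_right, Fin.ext h1]

noncomputable def relB (n m S : ℕ) (g : ℕ → ℕ) : Bool :=
  allLt n fun x => Nat.beq (iter (fun y => lk S (g y)) m x) x

noncomputable def eqB (n T : ℕ) (g : ℕ → ℕ) : Bool := allLt n fun x => Nat.beq (g x) (lk T x)

/-- incidence in a block system -/
def inc (n T x j : ℕ) : ℕ := Nat.land (Nat.shiftRight T (Nat.add (Nat.mul n j) x)) 1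

noncomputable def blkB (n m T j : ℕ) (g : ℕ → ℕ) : Bool :=
  anyLt m fun j' => allLt n fun x => Nat.beq (inc n T (g x) j') (inc n T x j)

/-- `g` preserves the block system -/
def Pres {n : ℕ} (m T : ℕ) (g : Fin n → Fin n) : Prop :=
  ∀ j : Fin m, ∃ j' : Fin m, ∀ x : Fin n, inc n T (g x) j' = inc n T x j

lemma pres_iff {n m T : ℕ} {g : Fin n → Fin n} {G : ℕ → ℕ} (h : ∀ x, (g x).val = G x) :
    Pres m T g ↔ ∀ j : Fin m, blkB n m T j G = true := by
  simp only [Pres, blkB, anyLt_iff, allLt_iff, Nat.beq_eq, h]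

lemma eq_of_eqB {n T : ℕ} {Γ : Subgroup (Perm (Fin n))} {g B : Γ} {G : ℕ → ℕ}
    (h : ∀ x, (g.1 x).val = G x) (hB : ∀ x, (B.1 x).val = lk T x) (h1 : eqB n T G = true) :
    g = B := by
  simp only [eqB, allLt_iff, Nat.beq_eq] at h1
  exact Subtype.ext (Equiv.ext fun x => Fin.ext (by rw [h, hB, h1]))

lemma pres_closure {n m T : ℕ} {S : Set (Perm (Fin n))} (h : ∀ g ∈ S, Pres m T g)
    {g : Perm (Fin n)} (hg : g ∈ closure S) : Pres m T g := by
  have h1 : Pres m T (1 : Perm (Fin n)) := fun j => ⟨j, fun _ => rfl⟩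
  have h2 : ∀ a b : Perm (Fin n), Pres m T a → Pres m T b → Pres m T (a * b : Perm (Fin n)) := by
    intro a b ha hb j
    obtain ⟨j1, h1⟩ := hb j
    obtain ⟨j2, h2⟩ := ha j1
    exact ⟨j2, fun x => (h2 (b x)).trans (h1 x)⟩
  induction hg using closure_induction with
  | mem g hg => exact h g hg
  | one => exact h1
  | mul a b _ _ ha hb => exact h2 a b ha hb
  | inv a _ ha =>
    have h3 : ∀ k : ℕ, Pres m T (a ^ k : Perm (Fin n)) := by
      intro k
      induction k with
      | zero => exact h1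
      | succ k ih => rw [pow_succ]; exact h2 _ _ ih ha
    have h4 : a⁻¹ = a ^ (orderOf a - 1) := by
      rw [inv_eq_iff_mul_eq_one, ← pow_succ', Nat.sub_add_cancel (orderOf_pos a), pow_orderOf_eq_one]
    rw [h4]
    exact h3 _

lemma rel_pt {n S : ℕ} {Γ : Subgroup (Perm (Fin n))} {f : MulAut Γ} {A B : Γ} {m : ℕ}
    (h : (A * B) ^ m = 1) (hA : f A = A) (ha : ∀ x, (A.1 x).val = lk S x) {G : ℕ → ℕ}
    (hg : ∀ x, ((f B).1 x).val = G x) : relB n m S G = true := by
  have h1 : (A * f B) ^ m = 1 := by rw [← hA, ← map_mul, ← map_pow, h, map_one]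
  have h2 : (A.1 * (f B).1) ^ m = 1 := congrArg Subtype.val h1
  simp only [relB, allLt_iff, Nat.beq_eq]
  intro x
  rw [iter_eq (t := ⇑(A.1 * (f B).1)) (fun y => by rw [Perm.mul_apply, ha, hg]), ← Perm.coe_pow, h2]
  rfl

lemma rel_of {n S T : ℕ} {Γ : Subgroup (Perm (Fin n))} {A B : Γ} {m : ℕ}
    (ha : ∀ x, (A.1 x).val = lk S x) (hb : ∀ x, (B.1 x).val = lk T x)
    (h : relB n m S (lk T) = true) : (A * B) ^ m = 1 := by
  simp only [relB, allLt_iff, Nat.beq_eq] at h
  refine Subtype.ext (Equiv.ext fun x => Fin.ext ?_)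
  have h1 := h x
  rw [iter_eq (t := ⇑(A.1 * B.1)) (fun y => by rw [Perm.mul_apply, ha, hb]), ← Perm.coe_pow] at h1
  exact h1

lemma pow_tb {n S T : ℕ} {Γ : Subgroup (Perm (Fin n))} {A : Γ} (ha : ∀ x, (A.1 x).val = lk S x)
    {j : ℕ} (h : eqB n T (iter (lk S) j) = true) (x : Fin n) : ((A ^ j).1 x).val = lk T x := by
  simp only [eqB, allLt_iff, Nat.beq_eq] at h
  rw [← h, iter_eq ha]
  rfl

lemma comm_tb {n S T S' T' : ℕ} {Γ : Subgroup (Perm (Fin n))} {A B A' B' : Γ}
    (ha : ∀ x, (A.1 x).val = lk S x) (hb : ∀ x, (B.1 x).val = lk T x)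
    (ha' : ∀ x, (A'.1 x).val = lk S' x) (hb' : ∀ x, (B'.1 x).val = lk T' x)
    (h : allLt n (fun x => Nat.beq (lk S (lk T x)) (lk S' (lk T' x))) = true) :
    A * B = A' * B' := by
  simp only [allLt_iff, Nat.beq_eq] at h
  refine Subtype.ext (Equiv.ext fun x => Fin.ext ?_)
  show (A.1 (B.1 x)).val = (A'.1 (B'.1 x)).val
  rw [ha, hb, ha', hb', h]

lemma fix_pt {n S : ℕ} {t t' g : Fin n → Fin n} (h : ∀ x, g (t x) = t' (g x))
    (ht' : ∀ x, (t' x).val = lk S x) {z : Fin n} (hz : t z = z) :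
    Nat.beq (lk S (g z)) (g z) = true := by
  rw [Nat.beq_eq, ← ht', ← h, hz]

lemma semi_pt {Ω : Type*} {Γ : Subgroup (Perm Ω)} {f : MulAut Γ} {T B : Γ} {j : ℕ}
    (h : B * T = T ^ j * B) (hT : f T = T) (x : Ω) :
    (f B).1 (T.1 x) = (T ^ j).1 ((f B).1 x) := by
  have h1 : f B * T = T ^ j * f B := by rw [← hT, ← map_pow, ← map_mul, ← map_mul, h]
  exact congrArg (fun σ : Γ => σ.1 x) h1

lemma aut_one {Ω : Type*} {S : Set (Perm Ω)} (f : MulAut (closure S))
    (h : ∀ g (hg : g ∈ S), f ⟨g, subset_closure hg⟩ = ⟨g, subset_closure hg⟩) : f = 1 := by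
  have := MonoidHom.eq_of_eqOn_dense (closure_closure_coe_preimage (k := S))
    (f := f.toMonoidHom) (g := MonoidHom.id _) fun x hx => h x.1 hx
  exact MulEquiv.ext fun x => DFunLike.congr_fun this x

/-- centralizer of an `r`-cycle in degree `r + 1` -/
lemma cent_succ {r : ℕ} {Γ : Subgroup (Perm (Fin (r + 1)))} {S : Γ} {x0 : Fin (r + 1)}
    (hx : x0 ≠ Fin.last r) (h1 : ∀ y, y ≠ Fin.last r → ∃ k, S.1^[k] x0 = y)
    (h0 : S.1 (Fin.last r) = Fin.last r) (h2 : ∀ x, x ≠ Fin.last r → S.1 x ≠ x) (g : Γ)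
    (h : g * S = S * g) : ∃ k : ℕ, g = S ^ k := by
  have h3 : Function.Semiconj g.1 S.1 S.1 := fun x => congrArg (fun σ : Γ => σ.1 x) h
  have h4 : g.1 (Fin.last r) = Fin.last r := by
    by_contra h4
    exact h2 _ h4 (by rw [← h3, h0])
  obtain ⟨k, hk⟩ := h1 (g.1 x0) fun h5 => hx (g.1.injective (h5.trans h4.symm))
  refine ⟨k, Subtype.ext (Equiv.ext fun x => ?_)⟩
  rw [Subgroup.coe_pow, Perm.coe_pow]
  by_cases h5 : x = Fin.last r
  · rw [h5, h4, Function.iterate_fixed h0]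
  · obtain ⟨j, rfl⟩ := h1 x h5
    rw [h3.iterate_right, ← hk, ← Function.iterate_add_apply, ← Function.iterate_add_apply,
      add_comm j k]

lemma cyc_of {n r S : ℕ} {s : Fin n → Fin n} (hs : ∀ x, (s x).val = lk S x) {P : ℕ → ℕ → Bool}
    (h : allLt n (fun x => allLt n fun y => P x y ||
      anyLt r fun k => Nat.beq (iter (lk S) k x) y) = true) (x y : Fin n) (hP : P x y = false) :
    ∃ k, s^[k] x = y := by
  simp only [allLt_iff, Bool.or_eq_true, anyLt_iff, Nat.beq_eq] at h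
  obtain ⟨k, hk⟩ := (h x y).resolve_left (by simp [hP])
  exact ⟨k, Fin.ext (by rw [← iter_eq hs, hk])⟩

end Vale.Agent.N240
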